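import Vale.Agent.P011NB.Gap

/-! Almost invariant vectors give invariant vectors, for representations of a lattice that are
trivial on a normal subgroup of the commensurator with dense image. -/

namespace Vale.Agent.P011NB

open MeasureTheory Filter Topology Pointwise

theorem isInvInvariant_of_right {L : Type*} [Group L] [TopologicalSpace L] [IsTopologicalGroup L]
    [LocallyCompactSpace L] [MeasurableSpace L] [BorelSpace L]
    (m : Measure L) [m.IsHaarMeasure] [m.InnerRegular] [m.IsMulRightInvariant] :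
    m.IsInvInvariant := by
  constructor
  let c : ENNReal := Measure.haarScalarFactor m.inv m
  have hc : m.inv = c • m := Measure.isMulLeftInvariant_eq_smul_of_innerRegular m.inv m
  have h1 : Measure.map Inv.inv (Measure.map Inv.inv m) = c ^ 2 • m := by
    rw [← Measure.inv_def m, hc, Measure.map_smul, ← Measure.inv_def m, hc, smul_smul, pow_two]
  have h2 : m = c ^ 2 • m := by
    rw [Measure.map_map continuous_inv.measurable continuous_inv.measurable] at h1
    have e : ((fun a : L => a⁻¹) ∘ fun a => a⁻¹) = id := by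
      funext a
      simp
    rw [e, Measure.map_id] at h1
    exact h1
  have K : TopologicalSpace.PositiveCompacts L := Classical.arbitrary _
  have h3 : c ^ 2 * m K = 1 ^ 2 * m K := by
    conv_rhs => rw [h2]
    simp
  have h4 : c ^ 2 = 1 ^ 2 :=
    (ENNReal.mul_left_inj (Measure.measure_pos_of_nonempty_interior _ K.interior_nonempty).ne'
      K.isCompact.measure_lt_top.ne).1 h3
  have h5 : c = 1 := (ENNReal.pow_right_strictMono two_ne_zero).injective h4
  rw [hc, h5, one_smul]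

theorem sigmaCompact_of_gen {G : Type*} [Group G] [TopologicalSpace G] [IsTopologicalGroup G]
    {W : Set G} (hW : IsCompact W) (hg : Subgroup.closure W = ⊤) : SigmaCompactSpace G := by
  let V : Set G := W ∪ W⁻¹
  have hV : IsCompact V := hW.union hW.inv
  have hK : ∀ n : ℕ, IsCompact (V ^ n) := fun n => by
    induction n with
    | zero => simp
    | succ n ih => rw [pow_succ]; exact ih.mul hV
  refine ⟨⟨fun n => V ^ n, hK, Set.eq_univ_of_forall fun y => ?_⟩⟩
  have hy : y ∈ Subgroup.closure W := by rw [hg]; trivial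
  rw [Set.mem_iUnion]
  induction hy using Subgroup.closure_induction_right with
  | one => exact ⟨0, by simp⟩
  | mul_right y _ t ht ih =>
    obtain ⟨n, hn⟩ := ih
    exact ⟨n + 1, by rw [pow_succ]; exact Set.mul_mem_mul hn (Or.inl ht)⟩
  | mul_inv_cancel y _ t ht ih =>
    obtain ⟨n, hn⟩ := ih
    exact ⟨n + 1, by rw [pow_succ]; exact Set.mul_mem_mul hn (Or.inr (by simpa using ht))⟩

namespace Sec

variable {Γ G : Type*} [Group Γ] [Group G] [TopologicalSpace G] [IsTopologicalGroup G]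
  [LocallyCompactSpace G] [MeasurableSpace G] [BorelSpace G] {μ : Measure G} [μ.IsHaarMeasure]
variable {H : Type*} [NormedAddCommGroup H] [InnerProductSpace ℝ H] [CompleteSpace H]
variable {Λ : Lat Γ G} {M : Mean Λ μ} {π : Γ →* (H ≃ₗᵢ[ℝ] H)} {k : Ker μ}

omit [LocallyCompactSpace G] in
theorem E_step (hs : Sym k) (F : Sec M π) :
    E k (F - (1 / 2 : ℝ) • (F - T k F)) ≤ E k F - ‖F - T k F‖ ^ 2 := by
  have e1 := En_sub_smul hs (ContinuousMonoidHom.id G) F (F - T k F) (1 / 2)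
  have e2 := En_le_norm k (ContinuousMonoidHom.id G) (F - T k F)
  rw [real_inner_self_eq_norm_sq] at e1
  unfold E
  linarith

/-- The heat flow converges to an invariant vector. -/
theorem heat (hk : k.Good) (hs : Sym k) {c : ℝ} (hc : 0 < c)
    (hgap : ∀ F : Sec M π, c * E k F ≤ ‖F - T k F‖ ^ 2) :
    ∃ C : ℝ, 0 ≤ C ∧ ∀ F : Sec M π, ∃ v : H, (∀ γ, π γ v = v) ∧
      ‖(T k F).val 1 - v‖ ≤ C * √(E k F) := by
  obtain ⟨D, hD, hev⟩ := exists_eval M π k
  set r : ℝ := 1 - min c 1 / 2 with hr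
  have hm0 : 0 < min c 1 := lt_min hc one_pos
  have hm1 : min c 1 ≤ 1 := min_le_right _ _
  have hr0 : 0 ≤ r := by linarith
  have hr1 : r < 1 := by linarith
  refine ⟨D / (1 - r), div_nonneg hD (by linarith), fun F => ?_⟩
  let W : ℕ → Sec M π := fun n => (fun Z => Z - (1 / 2 : ℝ) • (Z - T k Z))^[n] F
  have hW : ∀ n, W (n + 1) = W n - (1 / 2 : ℝ) • (W n - T k (W n)) := fun n =>
    Function.iterate_succ_apply' _ _ _
  have h1 : ∀ n, √(E k (W n)) ≤ √(E k F) * r ^ n := fun n => by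
    induction n with
    | zero => simp [W]
    | succ n ih =>
      have a1 := E_step hs (W n)
      have a2 := hgap (W n)
      have a3 : 0 ≤ E k (W n) := En_nonneg _ _ _
      have a4 : min c 1 * E k (W n) ≤ c * E k (W n) :=
        mul_le_mul_of_nonneg_right (min_le_left _ _) a3
      have a5 : √(E k (W (n + 1))) ≤ r * √(E k (W n)) := by
        refine Real.sqrt_le_iff.2 ⟨by positivity, ?_⟩
        rw [hW, mul_pow, Real.sq_sqrt a3, hr]
        nlinarith [mul_nonneg (sq_nonneg (min c 1)) a3]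
      have a6 := mul_le_mul_of_nonneg_left ih hr0
      rw [pow_succ]
      linarith
  have h2 : ∀ n, dist ((T k (W n)).val 1) ((T k (W (n + 1))).val 1) ≤ D * √(E k F) * r ^ n :=
    fun n => by
      have a1 := E_step hs (W n)
      have a2 : 0 ≤ E k (W n - (1 / 2 : ℝ) • (W n - T k (W n))) := En_nonneg _ _ _
      have a3 : ‖W n - T k (W n)‖ ≤ √(E k (W n)) := Real.le_sqrt_of_sq_le (by linarith)
      have a4 := hev (W n - T k (W n)) 1
      have a5 := mul_le_mul_of_nonneg_left (a3.trans (h1 n)) hD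
      have a6 := norm_nonneg ((T k (W n - T k (W n))).val 1)
      rw [dist_eq_norm, hW, map_sub, map_smul, val_sub, val_smul, sub_sub_cancel, norm_smul,
        Real.norm_of_nonneg (by norm_num)]
      linarith
  obtain ⟨v, hv⟩ := cauchySeq_tendsto_of_complete (cauchySeq_of_le_geometric r _ hr1 h2)
  refine ⟨v, fun γ => ?_, ?_⟩
  · obtain ⟨C, hC, h⟩ := exists_incr' M π hk (isCompact_singleton (x := Λ.ι γ))
    have a1 : Tendsto (fun n => π γ ((T k (W n)).val 1) - (T k (W n)).val 1) atTop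
        (𝓝 (π γ v - v)) := (((π γ).continuous.tendsto v).comp hv).sub hv
    have a2 : Tendsto (fun n => π γ ((T k (W n)).val 1) - (T k (W n)).val 1) atTop (𝓝 0) := by
      refine squeeze_zero_norm (a := fun n => C * (√(E k F) * r ^ n)) (fun n => ?_) ?_
      · have := h _ rfl (W n) 1
        rw [one_mul, ← mul_one (Λ.ι γ), equiv] at this
        exact this.trans (mul_le_mul_of_nonneg_left (h1 n) hC)
      · simpa using ((tendsto_pow_atTop_nhds_zero_of_lt_one hr0 hr1).const_mul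
          (√(E k F))).const_mul C
    exact sub_eq_zero.1 (tendsto_nhds_unique a1 a2)
  · have := dist_le_of_le_geometric_of_tendsto₀ r _ hr1 h2 hv
    rw [dist_eq_norm] at this
    refine this.trans (le_of_eq ?_)
    ring

variable (M π)

omit [BorelSpace G] [μ.IsHaarMeasure] [CompleteSpace H] in
/-- Equivariant maps which are close to a given almost invariant vector. -/
theorem exists_test {K : Set G} (hK : IsCompact K) : ∃ S : Set Γ, S.Finite ∧
    ∀ (ξ : H) (ε : ℝ), (∀ γ ∈ S, ‖π γ ξ - ξ‖ ≤ ε) →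
      ∃ F : Sec M π, ∀ g ∈ K, ‖F.val g - ξ‖ ≤ ε := by
  classical
  obtain ⟨β, hβ, hβc, hβ0, hβ1⟩ := Λ.exists_bruhat
  have hT := Λ.finite_meet hK hβc.isCompact
  refine ⟨_, hT, fun ξ ε hξ => ?_⟩
  have hz : ∀ γ g, β (Λ.ι γ * g) = 0 → β (Λ.ι γ * g) • π γ⁻¹ ξ = 0 := fun γ g h => by
    rw [h, zero_smul]
  refine ⟨⟨fun g => ∑ᶠ γ, β (Λ.ι γ * g) • π γ⁻¹ ξ, ?_, fun δ g => ?_⟩, fun g hg => ?_⟩
  · exact continuous_finsum (fun γ => by fun_prop)
      (Λ.locallyFinite hβc (φ := fun γ g => β (Λ.ι γ * g) • π γ⁻¹ ξ) hz)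
  · have e := map_finsum (π δ).toLinearEquiv.toLinearMap.toAddMonoidHom
      (Λ.finite_support hβc (φ := fun γ g => β (Λ.ι γ * g) • π γ⁻¹ ξ) hz g)
    refine Eq.trans ?_ e.symm
    rw [← finsum_comp (g := fun γ => (π δ).toLinearEquiv.toLinearMap.toAddMonoidHom
      (β (Λ.ι γ * g) • π γ⁻¹ ξ)) (fun γ => γ * δ) (Group.mulRight_bijective δ)]
    refine finsum_congr fun γ => ?_
    simp [mul_assoc]
  · have s1 : (Function.support fun γ => β (Λ.ι γ * g)) ⊆ hT.toFinset := fun γ hγ => by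
      rw [Set.Finite.coe_toFinset]
      exact ⟨g, hg, subset_tsupport _ hγ⟩
    have s2 : (Function.support fun γ => β (Λ.ι γ * g) • π γ⁻¹ ξ) ⊆ hT.toFinset :=
      fun γ hγ => s1 fun h => hγ (hz γ g h)
    have e1 := hβ1 g
    rw [finsum_eq_sum_of_support_subset _ s1] at e1
    change ‖(∑ᶠ γ, β (Λ.ι γ * g) • π γ⁻¹ ξ) - ξ‖ ≤ ε
    have e2 : ξ = ∑ γ ∈ hT.toFinset, β (Λ.ι γ * g) • ξ := by
      rw [← Finset.sum_smul, e1, one_smul]
    rw [finsum_eq_sum_of_support_subset _ s2]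
    nth_rewrite 2 [e2]
    rw [← Finset.sum_sub_distrib, ← one_mul ε, ← e1, Finset.sum_mul]
    refine (norm_sum_le _ _).trans (Finset.sum_le_sum fun γ hγ => ?_)
    rw [← smul_sub, norm_smul, Real.norm_of_nonneg (hβ0 _)]
    refine mul_le_mul_of_nonneg_left ?_ (hβ0 _)
    rw [← (π γ).norm_map, map_sub, norm_sub_rev]
    simpa using hξ γ (hT.mem_toFinset.1 hγ)

end Sec

/-- The estimate of Kazhdan type for a representation of a lattice. -/
theorem Lat.exists_invariant {Γ G H : Type*} [Group Γ] [Group G] [TopologicalSpace G]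
    [IsTopologicalGroup G] [LocallyCompactSpace G] [NormedAddCommGroup H]
    [InnerProductSpace ℝ H] [CompleteSpace H] (Λ : Lat Γ G) (π : Γ →* (H ≃ₗᵢ[ℝ] H))
    (hd : Dense {x | Comm Λ π x}) (hcg : ∃ W : Set G, IsCompact W ∧ Subgroup.closure W = ⊤)
    (hhom : ∀ χ : G → ℝ, Continuous χ → (∀ x y, χ (x * y) = χ x + χ y) →
      (∀ γ, π γ = 1 → χ (Λ.ι γ) = 0) → ∀ x, χ x = 0) :
    ∃ (S : Set Γ) (C : ℝ), S.Finite ∧ 0 < C ∧ ∀ (ξ : H) (ε : ℝ), (∀ γ ∈ S, ‖π γ ξ - ξ‖ ≤ ε) →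
      0 ≤ ε → ∃ v : H, (∀ γ, π γ v = v) ∧ ‖ξ - v‖ ≤ C * ε := by
  obtain ⟨W, hW, hg⟩ := hcg
  borelize G
  have := sigmaCompact_of_gen hW hg
  let μ : Measure G := Measure.haarMeasure (Classical.arbitrary _)
  have := Λ.isMulRightInvariant μ
  have := isInvInvariant_of_right μ
  obtain ⟨k, hk, hs⟩ := exists_good μ hW hg
  obtain ⟨κ, h1, h2⟩ := Λ.exists_mean μ
  let M : Mean Λ μ := ⟨κ, h1, h2⟩
  obtain ⟨c, hc, hgap⟩ := Sec.gap (M := M) hk hs hd hhom
  obtain ⟨C, hC, h⟩ := Sec.heat hk hs hc hgap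
  obtain ⟨S, hS, ht⟩ := Sec.exists_test M π
    ((κ.cs.isCompact.insert 1).mul (k.cs.isCompact.insert 1))
  refine ⟨S, 1 + 2 * C, hS, by positivity, fun ξ ε hξ hε => ?_⟩
  obtain ⟨F, hF⟩ := ht ξ ε hξ
  obtain ⟨v, hv, hv'⟩ := h F
  refine ⟨v, hv, ?_⟩
  have a1 : ‖(Sec.T k F).val 1 - ξ‖ ≤ ε := k.norm_av_sub_le (by fun_prop) ξ fun t ht =>
    hF _ ⟨1, Set.mem_insert _ _, t, Set.mem_insert_of_mem _ (subset_tsupport _ ht), rfl⟩
  have a2 : Sec.E k F ≤ (2 * ε) ^ 2 := Sec.En_le _ _ _ fun t ht =>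
    Sec.norm_le_of _ (by positivity) fun g hg => by
      have b1 := hF _ ⟨g, Set.mem_insert_of_mem _ (subset_tsupport _ hg), t,
        Set.mem_insert_of_mem _ (subset_tsupport _ ht), rfl⟩
      have b2 := hF g ⟨g, Set.mem_insert_of_mem _ (subset_tsupport _ hg), 1,
        Set.mem_insert _ _, mul_one _⟩
      have b3 := norm_sub_le_norm_sub_add_norm_sub (F.val (g * t)) ξ (F.val g)
      rw [norm_sub_rev ξ] at b3
      change ‖F.val (g * t) - F.val g‖ ≤ 2 * ε
      simp only at b1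
      linarith
  have a3 : √(Sec.E k F) ≤ 2 * ε := Real.sqrt_le_iff.2 ⟨by positivity, a2⟩
  have a4 := mul_le_mul_of_nonneg_left a3 hC
  have a5 := norm_sub_le_norm_sub_add_norm_sub ξ ((Sec.T k F).val 1) v
  rw [norm_sub_rev ξ ((Sec.T k F).val 1)] at a5
  linarith

/-- Almost invariant vectors give a nonzero invariant vector. -/
theorem propT {L G H : Type*} [Group L] [Group G] [TopologicalSpace G] [IsTopologicalGroup G]
    [LocallyCompactSpace G] [NormedAddCommGroup H] [InnerProductSpace ℝ H] [CompleteSpace H]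
    (p : L →* G) (D N : Subgroup L)
    (hcomm : ∀ n ∈ N, (D.comap (MulAut.conj n).toMonoidHom).relIndex D ≠ 0)
    (hprop : ∀ K : Set G, IsCompact K → {d : L | d ∈ D ∧ p d ∈ K}.Finite)
    (hcoc : ∃ C : Set G, IsCompact C ∧ ∀ g : G, ∃ d ∈ D, (p d)⁻¹ * g ∈ C)
    (hdense : ∀ g : G, g ∈ closure (p '' N))
    (hcg : ∃ W : Set G, IsCompact W ∧ Subgroup.closure W = ⊤)
    (hhom : ∀ χ : G → ℝ, Continuous χ → (∀ x y, χ (x * y) = χ x + χ y) →
      (∀ d ∈ D, d ∈ N → χ (p d) = 0) → ∀ x, χ x = 0)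
    (π : L →* (H ≃ₗᵢ[ℝ] H)) (hN : ∀ n ∈ N, π n = 1)
    (hai : ∀ F : Finset L, (∀ d ∈ F, d ∈ D) → ∀ ε > 0, ∃ v : H, ‖v‖ = 1 ∧
      ∀ d ∈ F, ‖π d v - v‖ ≤ ε) :
    ∃ v : H, v ≠ 0 ∧ ∀ d ∈ D, π d v = v := by
  classical
  obtain ⟨C₀, hC₀, hcov⟩ := hcoc
  let Λ : Lat D G :=
    { ι := p.comp D.subtype
      proper := fun K hK => ((hprop K hK).preimage (f := D.subtype)
        Subtype.val_injective.injOn).subset fun d hd => ⟨d.2, hd⟩
      C := C₀
      hC := hC₀
      cov := fun g => by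
        obtain ⟨d, hd, h⟩ := hcov g
        exact ⟨⟨d, hd⟩, _, h, by simp⟩ }
  obtain ⟨S, C, hS, hC, h⟩ := Λ.exists_invariant (π.comp D.subtype) (fun g => by
    refine closure_mono ?_ (hdense g)
    rintro _ ⟨n, hn, rfl⟩
    refine ⟨(D.comap (MulAut.conj n).toMonoidHom).subgroupOf D, ⟨hcomm n hn⟩, fun γ hγ =>
      ⟨⟨n * γ * n⁻¹, hγ⟩, ?_, ?_⟩⟩
    · simp [Λ]
    · simp [hN n hn]) hcg fun χ h1 h2 h3 => hhom χ h1 h2 fun d hd hn => h3 ⟨d, hd⟩ (hN d hn)
  obtain ⟨ξ, hξ, hξ'⟩ := hai (hS.toFinset.image Subtype.val) (by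
    intro d hd
    obtain ⟨γ, -, rfl⟩ := Finset.mem_image.1 hd
    exact γ.2) (1 / (2 * C)) (by positivity)
  obtain ⟨v, hv, hv'⟩ := h ξ _ (fun γ hγ => hξ' γ
    (Finset.mem_image_of_mem _ (hS.mem_toFinset.2 hγ))) (by positivity)
  refine ⟨v, fun h0 => ?_, fun d hd => hv ⟨d, hd⟩⟩
  rw [h0, sub_zero, hξ] at hv'
  have e : C * (1 / (2 * C)) = 1 / 2 := by field_simp
  linarith

end Vale.Agent.P011NB
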