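import Vale.Agent.P011NB.Ker
import Mathlib.MeasureTheory.Group.ModularCharacter
import Mathlib.MeasureTheory.Group.Integral
import Mathlib.Topology.UrysohnsLemma

/-! Cocompact lattices: the function of Bruhat, unfolding and the invariant mean on the
compact quotient. -/

namespace Vale.Agent.P011NB

open MeasureTheory Filter Topology Pointwise

/-- A homomorphism with finite kernel onto a discrete cocompact subgroup. -/
structure Lat (Γ G : Type*) [Group Γ] [Group G] [TopologicalSpace G] where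
  ι : Γ →* G
  proper : ∀ K : Set G, IsCompact K → {γ | ι γ ∈ K}.Finite
  C : Set G
  hC : IsCompact C
  cov : ∀ g, ∃ γ, ∃ c ∈ C, g = ι γ * c

namespace Lat

variable {Γ G : Type*} [Group Γ] [Group G] [TopologicalSpace G] [IsTopologicalGroup G]
  (Λ : Lat Γ G)

/-- Invariant functions. -/
def Inv {X : Type*} (f : G → X) : Prop := ∀ γ g, f (Λ.ι γ * g) = f g

theorem finite_meet {K K' : Set G} (hK : IsCompact K) (hK' : IsCompact K') :
    {γ | ∃ g ∈ K, Λ.ι γ * g ∈ K'}.Finite := by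
  refine (Λ.proper (K' * K⁻¹) (hK'.mul hK.inv)).subset ?_
  rintro γ ⟨g, hg, hg'⟩
  exact ⟨Λ.ι γ * g, hg', g⁻¹, by simpa using hg, by simp⟩

variable [LocallyCompactSpace G]

theorem locallyFinite {E : Type*} [Zero E] {h : G → ℝ} (hh : HasCompactSupport h)
    {φ : Γ → G → E} (hφ : ∀ γ g, h (Λ.ι γ * g) = 0 → φ γ g = 0) :
    LocallyFinite fun γ => Function.support (φ γ) := by
  intro g
  obtain ⟨K, hK, hg⟩ := exists_compact_mem_nhds g
  refine ⟨K, hg, (Λ.finite_meet hK hh.isCompact).subset ?_⟩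
  rintro γ ⟨x, hx, hxK⟩
  refine ⟨x, hxK, subset_tsupport _ fun h0 => hx (hφ γ x h0)⟩

theorem finite_support {E : Type*} [Zero E] {h : G → ℝ} (hh : HasCompactSupport h)
    {φ : Γ → G → E} (hφ : ∀ γ g, h (Λ.ι γ * g) = 0 → φ γ g = 0) (g : G) :
    (Function.support fun γ => φ γ g).Finite :=
  (Λ.locallyFinite hh hφ).point_finite g

theorem continuous_sum {h : G → ℝ} (hc : Continuous h) (hh : HasCompactSupport h) :
    Continuous fun g => ∑ᶠ γ, h (Λ.ι γ * g) :=
  continuous_finsum (fun _ => hc.comp (continuous_const.mul continuous_id))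
    (Λ.locallyFinite hh (φ := fun γ g => h (Λ.ι γ * g)) fun _ _ h0 => h0)

omit [IsTopologicalGroup G] [LocallyCompactSpace G] in
theorem inv_sum (h : G → ℝ) : Λ.Inv fun g => ∑ᶠ γ, h (Λ.ι γ * g) := by
  intro δ g
  simp only [← mul_assoc, ← map_mul]
  exact finsum_comp (g := fun γ => h (Λ.ι γ * g)) (fun γ => γ * δ) (Group.mulRight_bijective δ)

/-- The function of Bruhat. -/
theorem exists_bruhat : ∃ β : G → ℝ, Continuous β ∧ HasCompactSupport β ∧ (∀ g, 0 ≤ β g) ∧
    ∀ g, ∑ᶠ γ, β (Λ.ι γ * g) = 1 := by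
  obtain ⟨φ, h1, -, hc, h01⟩ :=
    exists_continuous_one_zero_of_isCompact Λ.hC isClosed_empty (Set.disjoint_empty _)
  have hpos : ∀ g, 0 < ∑ᶠ γ, φ (Λ.ι γ * g) := fun g => by
    obtain ⟨γ, c, hcC, rfl⟩ := Λ.cov g
    have e : ∑ᶠ δ, φ (Λ.ι δ * (Λ.ι γ * c)) = ∑ᶠ δ, φ (Λ.ι δ * c) := Λ.inv_sum φ γ c
    rw [e]
    refine finsum_pos (fun γ => (h01 _).1) ⟨1, ?_⟩
      (Λ.finite_support hc (φ := fun γ g => φ (Λ.ι γ * g)) (fun _ _ h0 => h0) c)
    rw [map_one, one_mul, h1 hcC]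
    exact one_pos
  refine ⟨fun g => φ g * (∑ᶠ γ, φ (Λ.ι γ * g))⁻¹, ?_, hc.mul_right, ?_, fun g => ?_⟩
  · exact φ.continuous.mul ((Λ.continuous_sum φ.continuous hc).inv₀ fun g => (hpos g).ne')
  · exact fun g => mul_nonneg (h01 g).1 (inv_nonneg.2 (hpos g).le)
  · have e : ∀ δ, ∑ᶠ γ, φ (Λ.ι γ * (Λ.ι δ * g)) = ∑ᶠ γ, φ (Λ.ι γ * g) := fun δ =>
      Λ.inv_sum φ δ g
    simp only [e]
    rw [← finsum_mul, mul_inv_cancel₀ (hpos g).ne']

variable [MeasurableSpace G] [BorelSpace G] (μ : Measure G) [μ.IsHaarMeasure]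

omit [LocallyCompactSpace G] in
/-- Unfolding. -/
theorem unfold {β : G → ℝ} (hβ : Continuous β) (hβc : HasCompactSupport β)
    (hβ1 : ∀ g, ∑ᶠ γ, β (Λ.ι γ * g) = 1) {h : G → ℝ} (hc : Continuous h)
    (hh : HasCompactSupport h) :
    ∫ g, h g ∂μ = ∫ g, β g * ∑ᶠ γ, h (Λ.ι γ * g) ∂μ := by
  classical
  have hT := Λ.finite_meet hβc.isCompact hh.isCompact
  set T := hT.toFinset with hTd
  have e1 : ∀ g, h g = ∑ γ ∈ T, β ((Λ.ι γ)⁻¹ * g) * h g := fun g => by
    by_cases hg : h g = 0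
    · simp [hg]
    have e : ∑ᶠ γ, β ((Λ.ι γ)⁻¹ * g) = 1 := by
      rw [← hβ1 g]
      simp only [← map_inv]
      exact finsum_comp (g := fun γ => β (Λ.ι γ * g)) (fun γ => γ⁻¹) inv_involutive.bijective
    rw [← Finset.sum_mul, ← finsum_eq_sum_of_support_subset, e, one_mul]
    intro γ hγ
    rw [hTd, Set.Finite.coe_toFinset]
    exact ⟨_, subset_tsupport _ hγ, subset_tsupport _ (by simpa using hg)⟩
  have e2 : ∀ g, β g * ∑ᶠ γ, h (Λ.ι γ * g) = ∑ γ ∈ T, β g * h (Λ.ι γ * g) := fun g => by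
    by_cases hg : β g = 0
    · simp [hg]
    rw [← Finset.mul_sum, ← finsum_eq_sum_of_support_subset]
    intro γ hγ
    rw [hTd, Set.Finite.coe_toFinset]
    exact ⟨g, subset_tsupport _ hg, subset_tsupport _ hγ⟩
  rw [integral_congr_ae (Eventually.of_forall e1), integral_congr_ae (Eventually.of_forall e2),
    integral_finsetSum, integral_finsetSum]
  · refine Finset.sum_congr rfl fun γ _ => ?_
    rw [← integral_mul_left_eq_self _ (Λ.ι γ)]
    simp
  · intro γ _
    exact (hβ.mul (hc.comp (continuous_const.mul continuous_id))).integrable_of_hasCompactSupport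
      hβc.mul_right
  · intro γ _
    exact ((hβ.comp (continuous_const.mul continuous_id)).mul hc).integrable_of_hasCompactSupport
      hh.mul_left

omit [LocallyCompactSpace G] in
theorem unfold_inv {β : G → ℝ} (hβ : Continuous β) (hβc : HasCompactSupport β)
    (hβ1 : ∀ g, ∑ᶠ γ, β (Λ.ι γ * g) = 1) {h : G → ℝ} (hc : Continuous h)
    (hh : HasCompactSupport h) {f : G → ℝ} (hf : Continuous f) (hi : Λ.Inv f) :
    ∫ g, h g * f g ∂μ = ∫ g, β g * ((∑ᶠ γ, h (Λ.ι γ * g)) * f g) ∂μ := by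
  rw [Λ.unfold μ hβ hβc hβ1 (h := fun g => h g * f g) (hc.mul hf) hh.mul_right]
  congr 1 with g
  simp only [hi _ g]
  rw [← finsum_mul]

omit [μ.IsHaarMeasure] [BorelSpace G] [LocallyCompactSpace G] [IsTopologicalGroup G]
  [MeasurableSpace G] in
theorem ne_zero_of_bruhat {β : G → ℝ} (hβ1 : ∀ g, ∑ᶠ γ, β (Λ.ι γ * g) = 1) : ∃ g, β g ≠ 0 := by
  by_contra h
  push Not at h
  have := hβ1 1
  simp [h] at this

include Λ in
/-- A group with a cocompact lattice is unimodular. -/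
theorem isMulRightInvariant [μ.InnerRegular] : μ.IsMulRightInvariant := by
  obtain ⟨β, hβ, hβc, hβ0, hβ1⟩ := Λ.exists_bruhat
  obtain ⟨g₀, hg₀⟩ := Λ.ne_zero_of_bruhat hβ1
  have hpos : 0 < ∫ g, β g ∂μ :=
    hβ.integral_pos_of_hasCompactSupport_nonneg_nonzero hβc hβ0 hg₀
  refine ⟨fun x => ?_⟩
  have h1 := Measure.map_right_mul_eq_modularCharacterFun_smul μ x
  have h2 : ∫ g, β (g * x) ∂μ = Measure.modularCharacterFun x • ∫ g, β g ∂μ := by
    rw [← integral_smul_nnreal_measure, ← h1, integral_map (measurable_mul_const x).aemeasurable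
      hβ.aestronglyMeasurable]
  have h3 : ∫ g, β (g * x) ∂μ = ∫ g, β g ∂μ := by
    rw [Λ.unfold μ hβ hβc hβ1 (h := fun g => β (g * x)) (hβ.comp (continuous_id.mul
      continuous_const)) (hβc.comp_homeomorph (Homeomorph.mulRight x))]
    congr 1 with g
    simp only [mul_assoc]
    rw [hβ1, mul_one]
  have h4 : (Measure.modularCharacterFun x : ℝ) = 1 := by
    rw [h3, NNReal.smul_def, smul_eq_mul] at h2
    field_simp at h2
    exact h2.symm
  rw [h1, NNReal.coe_eq_one.1 h4, one_smul]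

/-- The invariant mean on the compact quotient. -/
theorem exists_mean [μ.InnerRegular] : ∃ κ : Ker μ,
    (∀ f : G → ℝ, Continuous f → Λ.Inv f → ∀ x, κ.av (fun g => f (g * x)) = κ.av f) ∧
    ∀ k : Ker μ, ∃ D : ℝ, 0 ≤ D ∧ ∀ f : G → ℝ, Continuous f → Λ.Inv f → (∀ g, 0 ≤ f g) →
      ∀ g, k.av (fun t => f (g * t)) ≤ D * κ.av f := by
  have := Λ.isMulRightInvariant μ
  obtain ⟨β, hβ, hβc, hβ0, hβ1⟩ := Λ.exists_bruhat
  obtain ⟨g₀, hg₀⟩ := Λ.ne_zero_of_bruhat hβ1
  have hpos : 0 < ∫ g, β g ∂μ :=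
    hβ.integral_pos_of_hasCompactSupport_nonneg_nonzero hβc hβ0 hg₀
  set v := ∫ g, β g ∂μ with hv
  let κ : Ker μ := ⟨fun g => v⁻¹ * β g, continuous_const.mul hβ, hβc.mul_left,
    fun g => mul_nonneg (inv_nonneg.2 hpos.le) (hβ0 g), by
      rw [integral_const_mul, ← hv, inv_mul_cancel₀ hpos.ne']⟩
  have hκ : ∀ f : G → ℝ, κ.av f = v⁻¹ * ∫ g, β g * f g ∂μ := fun f => by
    rw [← integral_const_mul]
    unfold Ker.av
    congr 1 with g
    simp only [κ, smul_eq_mul, mul_assoc]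
  refine ⟨κ, fun f hf hi x => ?_, fun k => ?_⟩
  · rw [hκ, hκ]
    congr 1
    have e : ∫ g, β g * f (g * x) ∂μ = ∫ g, β (g * x⁻¹) * f g ∂μ := by
      rw [← integral_mul_right_eq_self _ x⁻¹]
      simp
    rw [e, Λ.unfold_inv μ hβ hβc hβ1 (h := fun g => β (g * x⁻¹)) (hβ.comp (continuous_id.mul
      continuous_const)) (hβc.comp_homeomorph (Homeomorph.mulRight x⁻¹)) hf hi]
    congr 1 with g
    simp only [mul_assoc]
    rw [hβ1, one_mul]
  · classical
    have hT := Λ.finite_meet hβc.isCompact (Λ.hC.mul k.cs.isCompact)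
    obtain ⟨M, hM⟩ := k.cont.bounded_above_of_compact_support k.cs
    have hM0 : 0 ≤ M := (norm_nonneg _).trans (hM 1)
    refine ⟨v * (hT.toFinset.card * M), by positivity, fun f hf hi h0 g => ?_⟩
    obtain ⟨γ, c, hc, rfl⟩ := Λ.cov g
    have e1 : k.av (fun t => f (Λ.ι γ * c * t)) = ∫ t, k.ρ (c⁻¹ * t) * f t ∂μ := by
      unfold Ker.av
      rw [← integral_mul_left_eq_self (fun t => k.ρ (c⁻¹ * t) * f t) c]
      congr 1 with t
      simp only
      rw [mul_assoc, hi, inv_mul_cancel_left, smul_eq_mul]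
    have hc1 : Continuous fun t => k.ρ (c⁻¹ * t) := k.cont.comp (continuous_const.mul continuous_id)
    have hc2 : HasCompactSupport fun t => k.ρ (c⁻¹ * t) :=
      k.cs.comp_homeomorph (Homeomorph.mulLeft c⁻¹)
    rw [e1, Λ.unfold_inv μ hβ hβc hβ1 hc1 hc2 hf hi, hκ, mul_comm v, mul_assoc, ← mul_assoc v,
      mul_inv_cancel₀ hpos.ne', one_mul, ← integral_const_mul]
    refine integral_mono ?_ ?_ fun t => ?_
    · exact (hβ.mul ((Λ.continuous_sum hc1 hc2).mul hf)).integrable_of_hasCompactSupport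
        hβc.mul_right
    · exact (continuous_const.mul (hβ.mul hf)).integrable_of_hasCompactSupport
        hβc.mul_right.mul_left
    · by_cases ht : β t = 0
      · simp [ht]
      have hs : ∑ᶠ δ, k.ρ (c⁻¹ * (Λ.ι δ * t)) ≤ hT.toFinset.card * M := by
        rw [finsum_eq_sum_of_support_subset (s := hT.toFinset)]
        · rw [← nsmul_eq_mul]
          exact Finset.sum_le_card_nsmul _ _ _ fun δ _ => (le_abs_self _).trans (hM _)
        · intro δ hδ
          rw [Set.Finite.coe_toFinset]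
          exact ⟨t, subset_tsupport _ ht, c, hc, _, subset_tsupport _ hδ, by simp⟩
      have := mul_le_mul_of_nonneg_right hs (mul_nonneg (hβ0 t) (h0 t))
      simp only
      linarith

end Lat

end Vale.Agent.P011NB
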