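import Vale.Agent.P011NB.Sup
import Mathlib.Order.Filter.Ultrafilter.Basic

/-! The spectral gap estimate for the energy of equivariant maps. -/

namespace Vale.Agent.P011NB

open MeasureTheory Filter Topology Pointwise

theorem tendsto_lim {a : ℕ → ℝ} {C : ℝ} (hC : ∀ n, |a n| ≤ C) :
    Tendsto a (hyperfilter ℕ) (𝓝 (limUnder (hyperfilter ℕ : Filter ℕ) a)) := by
  have hle : ((hyperfilter ℕ).map a : Filter ℝ) ≤ 𝓟 (Metric.closedBall 0 C) := by
    rw [le_principal_iff]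
    exact mem_map.2 (Eventually.of_forall fun n => by simpa using hC n)
  obtain ⟨x, -, hx⟩ := (isCompact_closedBall (0 : ℝ) C).ultrafilter_le_nhds _ hle
  exact tendsto_nhds_limUnder ⟨x, hx⟩

/-- Almost additive equicontinuous sequences tend to zero. -/
theorem no_scalar {G : Type*} [Group G] [TopologicalSpace G] [IsTopologicalGroup G]
    {f : ℕ → G → ℝ} (bound : ∀ y, ∃ C, ∀ n, |f n y| ≤ C)
    (small : ∀ ε > 0, ∀ᶠ x in 𝓝 (1 : G), ∀ n g, |f n (g * x) - f n g| ≤ ε)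
    {S : Set G} (hS : Dense S)
    (add : ∀ x ∈ S, ∀ g, Tendsto (fun n => f n (x * g) - f n x - f n g) atTop (𝓝 0))
    {Z : Set G} (hZ : ∀ z ∈ Z, ∀ n, f n z = 0)
    (hhom : ∀ χ : G → ℝ, Continuous χ → (∀ x y, χ (x * y) = χ x + χ y) → (∀ z ∈ Z, χ z = 0) →
      ∀ x, χ x = 0)
    {K : Set G} (hK : IsCompact K) {δ : ℝ} (hδ : 0 < δ) {a b : ℕ → G} (ha : ∀ n, a n ∈ K)
    (hb : ∀ n, b n ∈ K) (hl : ∀ n, δ ≤ f n (a n) - f n (b n)) : False := by
  let χ : G → ℝ := fun y => limUnder (hyperfilter ℕ : Filter ℕ) fun n => f n y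
  have hχ : ∀ y, Tendsto (fun n => f n y) (hyperfilter ℕ) (𝓝 (χ y)) := fun y => by
    obtain ⟨C, hC⟩ := bound y
    exact tendsto_lim hC
  have near : ∀ y, ∀ ε > 0, ∀ᶠ g in 𝓝 y, ∀ n, |f n g - f n y| ≤ ε := fun y ε hε => by
    have ht : Tendsto (fun g => y⁻¹ * g) (𝓝 y) (𝓝 1) := by
      have : Continuous fun g : G => y⁻¹ * g := by fun_prop
      simpa using this.tendsto y
    filter_upwards [ht.eventually (small ε hε)] with g hg n
    simpa using hg n y
  have hc : Continuous χ := by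
    rw [continuous_iff_continuousAt]
    intro y
    rw [ContinuousAt, Metric.tendsto_nhds]
    intro ε hε
    filter_upwards [near y (ε / 2) (half_pos hε)] with g hg
    have := le_of_tendsto' ((hχ g).sub (hχ y)).abs hg
    rw [Real.dist_eq]
    linarith
  have hadd : ∀ x y, χ (x * y) = χ x + χ y := fun x y => by
    have hcl : IsClosed {x : G | χ (x * y) = χ x + χ y} :=
      isClosed_eq (by fun_prop) (by fun_prop)
    refine closure_minimal (fun x hx => ?_) hcl (hS x)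
    have h1 := (add x hx y).mono_left Nat.hyperfilter_le_atTop
    have h2 := tendsto_nhds_unique (((hχ (x * y)).sub (hχ x)).sub (hχ y)) h1
    change χ (x * y) = χ x + χ y
    linarith
  have h0 := hhom χ hc hadd fun z hz => by
    have h1 := hχ z
    simp only [hZ z hz] at h1
    exact tendsto_nhds_unique h1 tendsto_const_nhds
  have lim : ∀ a : ℕ → G, (∀ n, a n ∈ K) → ∀ᶠ n in hyperfilter ℕ, |f n (a n)| ≤ δ / 3 := by
    intro a ha
    have hle : ((hyperfilter ℕ).map a : Filter G) ≤ 𝓟 K := by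
      rw [le_principal_iff]
      exact mem_map.2 (Eventually.of_forall ha)
    obtain ⟨y, -, hy⟩ := hK.ultrafilter_le_nhds _ hle
    have h1 : ∀ᶠ n in hyperfilter ℕ, ∀ i, |f i (a n) - f i y| ≤ δ / 6 :=
      Tendsto.eventually hy (near y (δ / 6) (by positivity))
    have h2 := Metric.tendsto_nhds.1 (hχ y) (δ / 6) (by positivity)
    filter_upwards [h1, h2] with n h3 h4
    rw [h0 y, Real.dist_eq, sub_zero, abs_lt] at h4
    have h5 := abs_le.1 (h3 n)
    rw [abs_le]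
    constructor <;> linarith [h4.1, h4.2, h5.1, h5.2]
  obtain ⟨n, h1, h2⟩ := ((lim a ha).and (lim b hb)).exists
  have := hl n
  rw [abs_le] at h1 h2
  linarith [h1.2, h2.1]

/-- The restriction of a lattice to a subgroup of finite index. -/
noncomputable def Lat.restrict {Γ G : Type*} [Group Γ] [Group G] [TopologicalSpace G]
    [IsTopologicalGroup G] (Λ : Lat Γ G) (Δ : Subgroup Γ) [Δ.FiniteIndex] : Lat Δ G where
  ι := Λ.ι.comp Δ.subtype
  proper K hK := (Λ.proper K hK).preimage (f := Δ.subtype) Subtype.val_injective.injOn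
  C := ⋃ q : Γ ⧸ Δ, (fun c => Λ.ι q.out⁻¹ * c) '' Λ.C
  hC := isCompact_iUnion fun _ => Λ.hC.image (by fun_prop)
  cov g := by
    obtain ⟨γ, c, hc, rfl⟩ := Λ.cov g
    obtain ⟨d, hd⟩ := QuotientGroup.mk_out_eq_mul Δ γ⁻¹
    refine ⟨d, _, Set.mem_iUnion.2 ⟨(γ⁻¹ : Γ), c, hc, rfl⟩, ?_⟩
    simp [hd, mul_assoc]

namespace Sec

variable {Γ G : Type*} [Group Γ] [Group G] [TopologicalSpace G] [IsTopologicalGroup G]
  [LocallyCompactSpace G] [MeasurableSpace G] [BorelSpace G] {μ : Measure G} [μ.IsHaarMeasure]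
variable {H : Type*} [NormedAddCommGroup H] [InnerProductSpace ℝ H] [CompleteSpace H]
variable {Λ : Lat Γ G} {M : Mean Λ μ} {π : Γ →* (H ≃ₗᵢ[ℝ] H)} {k : Ker μ}

/-- The Markov operator. -/
noncomputable abbrev T (k : Ker μ) : Sec M π →ₗ[ℝ] Sec M π := P k (ContinuousMonoidHom.id G)

/-- The energy. -/
noncomputable abbrev E (k : Ker μ) (F : Sec M π) : ℝ := En k (ContinuousMonoidHom.id G) F

omit [LocallyCompactSpace G] in
theorem val_T (F : Sec M π) (g : G) : (T k F).val g = k.av fun t => F.val (g * t) := rfl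

variable (M π)

omit [LocallyCompactSpace G] in
theorem exists_eval (k : Ker μ) : ∃ D : ℝ, 0 ≤ D ∧ ∀ (F : Sec M π) (g : G),
    ‖(T k F).val g‖ ≤ D * ‖F‖ := exists_sup M π k

theorem exists_incr (hk : k.Good) {K₀ : Set G} (hK₀ : IsCompact K₀) :
    ∃ C : ℝ, 0 ≤ C ∧ ∀ x ∈ K₀, ∀ ε : ℝ, (∀ t, |k.ρ (x⁻¹ * t) - k.ρ t| ≤ ε) →
      ∀ (F : Sec M π) (g : G), ‖(T k F).val (g * x) - (T k F).val g‖ ≤ ε * C * √(E k F) := by
  obtain ⟨K', C, hK', hC, h⟩ := exists_osc M π k hK₀
  obtain ⟨D, hD, h'⟩ := sub_bound μ hk hK'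
  refine ⟨C * D, by positivity, fun x hx ε hε F g => ?_⟩
  have h1 : k.av (fun s => ‖R s F - F‖) ≤ √(E k F) :=
    Real.le_sqrt_of_sq_le (k.sq_av_le (continuous_norm_D F))
  refine (h x hx ε hε F (D * √(E k F)) (fun y hy => ?_) g).trans (le_of_eq (by ring))
  exact (h' _ (continuous_norm_D F) (fun _ => norm_nonneg _) (fun s t => norm_D_mul s t F)
    (fun s => norm_D_inv s F) y hy).trans (mul_le_mul_of_nonneg_left h1 hD)

theorem exists_incr' (hk : k.Good) {K₀ : Set G} (hK₀ : IsCompact K₀) :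
    ∃ C : ℝ, 0 ≤ C ∧ ∀ x ∈ K₀, ∀ (F : Sec M π) (g : G),
      ‖(T k F).val (g * x) - (T k F).val g‖ ≤ C * √(E k F) := by
  obtain ⟨C, hC, h⟩ := exists_incr M π hk hK₀
  obtain ⟨B, hB⟩ := k.cont.bounded_above_of_compact_support k.cs
  have hB0 : 0 ≤ B := (norm_nonneg _).trans (hB 1)
  exact ⟨(B + B) * C, by positivity, fun x hx => h x hx _ fun t =>
    (norm_sub_le _ _).trans (add_le_add (hB _) (hB _))⟩

variable {M π}

/-- Bounded almost harmonic equivariant maps are almost constant. -/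
theorem almost_const (hk : k.Good) (hs : Sym k) {c : ℕ → Sec M π} {B : ℝ} (hB : ∀ n, ‖c n‖ ≤ B)
    {u : ℕ → ℝ} (hu : Tendsto u atTop (𝓝 0)) (hc : ∀ n g, ‖(c n - T k (c n)).val g‖ ≤ u n)
    (g : G) : Tendsto (fun n => (c n).val g - (c n).val 1) atTop (𝓝 0) := by
  obtain ⟨C, hC, h⟩ := exists_incr' M π hk (isCompact_singleton (x := g))
  have hu0 : ∀ n, 0 ≤ u n := fun n => (norm_nonneg _).trans (hc n 1)
  have h1 : ∀ n, E k (c n) ≤ 2 * (u n * B) := fun n => by
    have e := En_eq hs (ContinuousMonoidHom.id G) (c n)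
    have a1 := real_inner_le_norm (c n - T k (c n)) (c n)
    have a2 : ‖c n - T k (c n)‖ ≤ u n := norm_le_of _ (hu0 n) fun g _ => hc n g
    have a3 := mul_le_mul a2 (hB n) (norm_nonneg _) (hu0 n)
    unfold E
    unfold T at a1 a3
    linarith
  have h2 : Tendsto (fun n => C * √(2 * (u n * B)) + u n + u n) atTop (𝓝 0) := by
    have := ((((hu.mul_const B).const_mul 2).sqrt.const_mul C).add hu).add hu
    simpa using this
  refine squeeze_zero_norm (fun n => ?_) h2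
  have a1 := h g rfl (c n) 1
  rw [one_mul] at a1
  have a2 := mul_le_mul_of_nonneg_left (Real.sqrt_le_sqrt (h1 n)) hC
  have e : (c n).val g - (c n).val 1 = ((T k (c n)).val g - (T k (c n)).val 1) +
      (c n - T k (c n)).val g - (c n - T k (c n)).val 1 := by
    simp only [val_sub]
    abel
  rw [e]
  refine (norm_sub_le _ _).trans (add_le_add ((norm_add_le _ _).trans
    (add_le_add (a1.trans a2) (hc n g))) (hc n 1))

end Sec

/-- Elements of the group which commensurate the lattice and the representation. -/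
def Comm {Γ G H : Type*} [Group Γ] [Group G] [TopologicalSpace G] [NormedAddCommGroup H]
    [InnerProductSpace ℝ H] (Λ : Lat Γ G) (π : Γ →* (H ≃ₗᵢ[ℝ] H)) (x : G) : Prop :=
  ∃ Δ : Subgroup Γ, Δ.FiniteIndex ∧ ∀ γ ∈ Δ, ∃ δ : Γ, Λ.ι δ * x = x * Λ.ι γ ∧ π δ = π γ

namespace Sec

variable {Γ G : Type*} [Group Γ] [Group G] [TopologicalSpace G] [IsTopologicalGroup G]
  [LocallyCompactSpace G] [MeasurableSpace G] [BorelSpace G] {μ : Measure G} [μ.IsHaarMeasure]
  [μ.InnerRegular]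
variable {H : Type*} [NormedAddCommGroup H] [InnerProductSpace ℝ H] [CompleteSpace H]
variable {Λ : Lat Γ G} {M : Mean Λ μ} {π : Γ →* (H ≃ₗᵢ[ℝ] H)} {k : Ker μ}

theorem almost_add (hk : k.Good) (hs : Sym k) {Φ : ℕ → Sec M π}
    (hB : ∀ K : Set G, IsCompact K → ∃ C, ∀ x ∈ K, ∀ n g, ‖(Φ n).val (g * x) - (Φ n).val g‖ ≤ C)
    {u : ℕ → ℝ} (hu : Tendsto u atTop (𝓝 0)) (hc : ∀ n g, ‖(Φ n - T k (Φ n)).val g‖ ≤ u n)
    {x : G} (hx : Comm Λ π x) (g : G) :
    Tendsto (fun n => ((Φ n).val (x * g) - (Φ n).val g) - ((Φ n).val x - (Φ n).val 1))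
      atTop (𝓝 0) := by
  obtain ⟨Δ, hΔ, h⟩ := hx
  obtain ⟨κ, h1, h2⟩ := (Λ.restrict Δ).exists_mean μ
  let M' : Mean (Λ.restrict Δ) μ := ⟨κ, h1, h2⟩
  let c : ℕ → Sec M' (π.comp Δ.subtype) := fun n =>
    ⟨fun g => (Φ n).val (x * g) - (Φ n).val g, by fun_prop, fun γ g => by
      obtain ⟨δ, e1, e2⟩ := h γ γ.2
      change (Φ n).val (x * (Λ.ι γ * g)) - (Φ n).val (Λ.ι γ * g) =
        π γ ((Φ n).val (x * g) - (Φ n).val g)
      rw [← mul_assoc, ← e1, mul_assoc, equiv, equiv, e2, map_sub]⟩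
  have hv : ∀ n g, (c n).val g = (Φ n).val (x * g) - (Φ n).val g := fun _ _ => rfl
  obtain ⟨C, hC⟩ := hB _ (κ.cs.isCompact.image (f := fun g => g⁻¹ * x * g) (by fun_prop))
  have hC' : ∀ n, ‖c n‖ ≤ max C 0 := fun n => norm_le_of _ (le_max_right _ _) fun g hg => by
    have := hC _ ⟨g, subset_tsupport _ hg, rfl⟩ n g
    rw [hv]
    simp only [mul_assoc, mul_inv_cancel_left] at this
    exact this.trans (le_max_left _ _)
  have := almost_const hk hs hC' (u := fun n => u n + u n) (by simpa using hu.add hu)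
    (fun n g => by
      have e : (c n - T k (c n)).val g =
          (Φ n - T k (Φ n)).val (x * g) - (Φ n - T k (Φ n)).val g := by
        simp only [val_sub, val_T, hv, ← mul_assoc]
        rw [k.av_sub (by fun_prop) (by fun_prop)]
        abel
      rw [e]
      exact (norm_sub_le _ _).trans (add_le_add (hc n _) (hc n _))) g
  simpa only [hv, mul_one] using this

/-- The spectral gap. -/
theorem gap (hk : k.Good) (hs : Sym k) (hd : Dense {x | Comm Λ π x})
    (hhom : ∀ χ : G → ℝ, Continuous χ → (∀ x y, χ (x * y) = χ x + χ y) →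
      (∀ γ, π γ = 1 → χ (Λ.ι γ) = 0) → ∀ x, χ x = 0) :
    ∃ c > 0, ∀ F : Sec M π, c * E k F ≤ ‖F - T k F‖ ^ 2 := by
  by_contra hn
  push Not at hn
  have hF : ∀ n : ℕ, ∃ F : Sec M π, E k F = 1 ∧ ‖F - T k F‖ ≤ 1 / 4 * (1 / ((n : ℝ) + 1)) := by
    intro n
    obtain ⟨F, hF⟩ := hn ((1 / 4 * (1 / ((n : ℝ) + 1))) ^ 2) (by positivity)
    have h0 : 0 < E k F := by
      by_contra h
      have h1 : E k F = 0 := le_antisymm (not_lt.1 h) (En_nonneg _ _ _)
      rw [h1, mul_zero] at hF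
      exact absurd hF (not_lt.2 (by positivity))
    have hq : 0 < √(E k F) := Real.sqrt_pos.2 h0
    refine ⟨(√(E k F))⁻¹ • F, ?_, ?_⟩
    · unfold E
      rw [En_smul, inv_pow, Real.sq_sqrt h0.le, inv_mul_cancel₀ h0.ne']
    · rw [map_smul, ← smul_sub, norm_smul, Real.norm_of_nonneg (inv_nonneg.2 hq.le),
        inv_mul_le_iff₀ hq]
      refine (le_abs_self _).trans (abs_le_of_sq_le_sq ?_ (by positivity))
      rw [mul_pow, Real.sq_sqrt h0.le, mul_comm]
      exact hF.le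
  choose F hE hA using hF
  obtain ⟨D, hD, hev⟩ := exists_eval M π k
  have hB : ∀ K : Set G, IsCompact K → ∃ C, ∀ x ∈ K, ∀ n g,
      ‖(T k (F n)).val (g * x) - (T k (F n)).val g‖ ≤ C := fun K hK => by
    obtain ⟨C, -, h⟩ := exists_incr' M π hk hK
    exact ⟨C, fun x hx n g => by simpa [hE n] using h x hx (F n) g⟩
  have hu : Tendsto (fun n : ℕ => D * (1 / 4 * (1 / ((n : ℝ) + 1)))) atTop (𝓝 0) := by
    simpa using (tendsto_one_div_add_atTop_nhds_zero_nat.const_mul (1 / 4 : ℝ)).const_mul D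
  have hc : ∀ n g, ‖(T k (F n) - T k (T k (F n))).val g‖ ≤ D * (1 / 4 * (1 / ((n : ℝ) + 1))) :=
    fun n g => by
      rw [← map_sub]
      exact (hev _ g).trans (mul_le_mul_of_nonneg_left (hA n) hD)
  have hl : ∀ n, ∃ g t, M.κ.ρ g ≠ 0 ∧ k.ρ t ≠ 0 ∧
      1 / 4 ≤ ‖(T k (F n)).val (g * t) - (T k (F n)).val g‖ := fun n => by
    by_contra h
    push Not at h
    have a1 : E k (T k (F n)) ≤ (1 / 4) ^ 2 := En_le _ _ _ fun t ht =>
      norm_le_of _ (by norm_num) fun g hg => (h g t hg ht).le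
    have a2 := En_add_le k (ContinuousMonoidHom.id G) (T k (F n)) (F n - T k (F n))
    have a3 := En_le_norm k (ContinuousMonoidHom.id G) (F n - T k (F n))
    have a4 : ‖F n - T k (F n)‖ ≤ 1 / 4 := by
      refine (hA n).trans ?_
      have : 1 / ((n : ℝ) + 1) ≤ 1 := by
        rw [div_le_one (by positivity)]
        linarith [(n.cast_nonneg : (0 : ℝ) ≤ n)]
      linarith
    have a5 := pow_le_pow_left₀ (norm_nonneg _) a4 2
    have a6 := hE n
    rw [add_sub_cancel] at a2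
    unfold E at a1 a6
    linarith
  choose g t hg ht hl using hl
  let v : ℕ → H := fun n => (T k (F n)).val (g n * t n) - (T k (F n)).val (g n)
  let η : ℕ → H := fun n => ‖v n‖⁻¹ • v n
  have hv : ∀ n, 0 < ‖v n‖ := fun n => lt_of_lt_of_le (by norm_num) (hl n)
  have hη : ∀ n, ‖η n‖ = 1 := fun n => by
    simp only [η]
    rw [norm_smul, norm_inv, norm_norm, inv_mul_cancel₀ (hv n).ne']
  have hin : ∀ n w, |inner ℝ (η n) w| ≤ ‖w‖ := fun n w => by
    simpa [hη n] using abs_real_inner_le_norm (η n) w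
  refine no_scalar (f := fun n y => inner ℝ (η n) ((T k (F n)).val y - (T k (F n)).val 1))
    (fun y => ?_) (fun ε hε => ?_) hd (fun x hx y => ?_) (Z := Λ.ι '' {γ | π γ = 1}) ?_
    (fun χ h1 h2 h3 => hhom χ h1 h2 fun γ hγ => h3 _ ⟨γ, hγ, rfl⟩)
    (K := tsupport M.κ.ρ * insert 1 (tsupport k.ρ))
    (M.κ.cs.isCompact.mul (k.cs.isCompact.insert 1)) (δ := 1 / 4) (by norm_num)
    (a := fun n => g n * t n) (b := g) (fun n => ?_) (fun n => ?_) fun n => ?_
  · obtain ⟨C, hC⟩ := hB _ (isCompact_singleton (x := y))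
    exact ⟨C, fun n => (hin _ _).trans (by simpa using hC y rfl n 1)⟩
  · obtain ⟨K₀, hK₀, h1⟩ := exists_compact_mem_nhds (1 : G)
    obtain ⟨C, hC, h⟩ := exists_incr M π hk hK₀
    filter_upwards [h1, unif k.cont k.cs (ε := ε / (C + 1)) (by positivity)] with x hx h2 n y
    rw [← inner_sub_right, sub_sub_sub_cancel_right]
    refine (hin _ _).trans ((h x hx _ h2 (F n) y).trans ?_)
    rw [hE n, Real.sqrt_one, mul_one, div_mul_eq_mul_div, div_le_iff₀ (by positivity)]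
    nlinarith
  · refine squeeze_zero_norm (fun n => ?_)
      (tendsto_zero_iff_norm_tendsto_zero.1 (almost_add hk hs hB hu hc hx y))
    rw [← inner_sub_right, ← inner_sub_right]
    refine (hin _ _).trans (le_of_eq ?_)
    congr 1
    abel
  · rintro _ ⟨γ, hγ, rfl⟩ n
    have := (T k (F n)).equiv γ 1
    rw [mul_one, hγ] at this
    rw [this]
    simp
  · exact ⟨g n, subset_tsupport _ (hg n), t n,
      Set.mem_insert_of_mem _ (subset_tsupport _ (ht n)), rfl⟩
  · exact ⟨g n, subset_tsupport _ (hg n), 1, Set.mem_insert _ _, mul_one _⟩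
  · rw [← inner_sub_right, sub_sub_sub_cancel_right]
    change 1 / 4 ≤ inner ℝ (‖v n‖⁻¹ • v n) (v n)
    rw [real_inner_smul_left, real_inner_self_eq_norm_sq, pow_two,
      inv_mul_cancel_left₀ (hv n).ne']
    exact hl n

end Sec

end Vale.Agent.P011NB
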