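import Mathlib.MeasureTheory.Integral.Prod
import Mathlib.MeasureTheory.Integral.Bochner.ContinuousLinearMap
import Mathlib.Analysis.InnerProductSpace.Continuous
import Mathlib.Analysis.InnerProductSpace.LinearMap

/-! Averages against a continuous probability density with compact support. -/

namespace Vale.Agent.P011NB

open MeasureTheory Filter Topology

/-- A continuous probability density with compact support. -/
structure Ker {L : Type*} [TopologicalSpace L] [MeasurableSpace L] (m : Measure L) where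
  ρ : L → ℝ
  cont : Continuous ρ
  cs : HasCompactSupport ρ
  nonneg : ∀ t, 0 ≤ ρ t
  int : ∫ t, ρ t ∂m = 1

namespace Ker

variable {L : Type*} [TopologicalSpace L] [MeasurableSpace L] {m : Measure L}
variable {E : Type*} [NormedAddCommGroup E] [NormedSpace ℝ E]

/-- The average. -/
noncomputable def av (k : Ker m) (φ : L → E) : E := ∫ t, k.ρ t • φ t ∂m

theorem av_congr (k : Ker m) {φ ψ : L → E} (h : ∀ t, k.ρ t ≠ 0 → φ t = ψ t) :
    k.av φ = k.av ψ := by
  unfold av
  congr 1 with t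
  by_cases ht : k.ρ t = 0
  · simp [ht]
  · rw [h t ht]

theorem av_const [CompleteSpace E] (k : Ker m) (c : E) : k.av (fun _ => c) = c := by
  unfold av
  rw [integral_smul_const, k.int, one_smul]

theorem av_smul (k : Ker m) (r : ℝ) (φ : L → E) : k.av (fun t => r • φ t) = r • k.av φ := by
  unfold av
  rw [← integral_smul]
  congr 1 with t
  rw [smul_comm]

theorem av_mul (k : Ker m) (r : ℝ) (φ : L → ℝ) : k.av (fun t => r * φ t) = r * k.av φ :=
  k.av_smul r φ

theorem av_neg (k : Ker m) (φ : L → E) : k.av (fun t => -φ t) = -k.av φ := by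
  unfold av
  rw [← integral_neg]
  congr 1 with t
  rw [smul_neg]

theorem av_nonneg (k : Ker m) {φ : L → ℝ} (h : ∀ t, 0 ≤ φ t) : 0 ≤ k.av φ :=
  integral_nonneg fun t => mul_nonneg (k.nonneg t) (h t)

variable [OpensMeasurableSpace L] [IsFiniteMeasureOnCompacts m]

theorem integrable (k : Ker m) {φ : L → E} (hφ : Continuous φ) :
    Integrable (fun t => k.ρ t • φ t) m :=
  (k.cont.smul hφ).integrable_of_hasCompactSupport k.cs.smul_right

theorem av_add (k : Ker m) {φ ψ : L → E} (hφ : Continuous φ) (hψ : Continuous ψ) :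
    k.av (fun t => φ t + ψ t) = k.av φ + k.av ψ := by
  unfold av
  rw [← integral_add (k.integrable hφ) (k.integrable hψ)]
  congr 1 with t
  rw [smul_add]

theorem av_sub (k : Ker m) {φ ψ : L → E} (hφ : Continuous φ) (hψ : Continuous ψ) :
    k.av (fun t => φ t - ψ t) = k.av φ - k.av ψ := by
  unfold av
  rw [← integral_sub (k.integrable hφ) (k.integrable hψ)]
  congr 1 with t
  rw [smul_sub]

theorem av_mono (k : Ker m) {φ ψ : L → ℝ} (hφ : Continuous φ) (hψ : Continuous ψ)
    (h : ∀ t, k.ρ t ≠ 0 → φ t ≤ ψ t) : k.av φ ≤ k.av ψ := by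
  refine integral_mono (k.integrable hφ) (k.integrable hψ) fun t => ?_
  by_cases ht : k.ρ t = 0
  · simp [ht]
  · exact mul_le_mul_of_nonneg_left (h t ht) (k.nonneg t)

theorem av_le (k : Ker m) {φ : L → ℝ} (hφ : Continuous φ) {c : ℝ}
    (h : ∀ t, k.ρ t ≠ 0 → φ t ≤ c) : k.av φ ≤ c := by
  have := k.av_mono hφ continuous_const h
  rwa [av_const] at this

theorem le_av (k : Ker m) {φ : L → ℝ} (hφ : Continuous φ) {c : ℝ}
    (h : ∀ t, k.ρ t ≠ 0 → c ≤ φ t) : c ≤ k.av φ := by
  have := k.av_mono continuous_const hφ h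
  rwa [av_const] at this

omit [OpensMeasurableSpace L] [IsFiniteMeasureOnCompacts m] in
theorem norm_av_le (k : Ker m) (φ : L → E) : ‖k.av φ‖ ≤ k.av fun t => ‖φ t‖ := by
  refine (norm_integral_le_integral_norm _).trans (le_of_eq ?_)
  unfold av
  congr 1 with t
  rw [norm_smul, Real.norm_of_nonneg (k.nonneg t), smul_eq_mul]

theorem norm_av_le_of (k : Ker m) {φ : L → E} (hφ : Continuous φ) {c : ℝ}
    (h : ∀ t, k.ρ t ≠ 0 → ‖φ t‖ ≤ c) : ‖k.av φ‖ ≤ c :=
  (k.norm_av_le φ).trans (k.av_le hφ.norm h)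

theorem norm_av_sub_le [CompleteSpace E] (k : Ker m) {φ : L → E} (hφ : Continuous φ) (w : E)
    {c : ℝ} (h : ∀ t, k.ρ t ≠ 0 → ‖φ t - w‖ ≤ c) : ‖k.av φ - w‖ ≤ c := by
  have e : k.av φ - w = k.av fun t => φ t - w := by
    rw [k.av_sub hφ continuous_const, av_const]
  rw [e]
  exact k.norm_av_le_of (hφ.sub continuous_const) h

theorem map_av {F : Type*} [NormedAddCommGroup F] [NormedSpace ℝ F] [CompleteSpace E]
    [CompleteSpace F] (k : Ker m) (T : E →L[ℝ] F) {φ : L → E} (hφ : Continuous φ) :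
    T (k.av φ) = k.av fun t => T (φ t) := by
  unfold av
  rw [← T.integral_comp_comm (k.integrable hφ)]
  congr 1 with t
  rw [map_smul]

theorem continuous_av {X : Type*} [TopologicalSpace X] (k : Ker m) {φ : X → L → E}
    (hφ : Continuous φ.uncurry) : Continuous fun x => k.av (φ x) := by
  rw [← continuousOn_univ]
  refine continuousOn_integral_of_compact_support (f := fun x t => k.ρ t • φ x t) k.cs ?_ ?_
  · refine Continuous.continuousOn ?_
    exact (k.cont.comp continuous_snd).smul hφ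
  · intro p x _ hx
    rw [image_eq_zero_of_notMem_tsupport hx, zero_smul]

theorem av_swap {L' : Type*} [TopologicalSpace L'] [MeasurableSpace L'] [OpensMeasurableSpace L']
    {m' : Measure L'} [IsFiniteMeasureOnCompacts m'] (k : Ker m) (k' : Ker m')
    {φ : L → L' → E} (hφ : Continuous φ.uncurry) :
    k.av (fun s => k'.av (φ s)) = k'.av fun t => k.av fun s => φ s t := by
  unfold av
  have e1 : ∀ s, k.ρ s • ∫ t, k'.ρ t • φ s t ∂m' = ∫ t, k.ρ s • k'.ρ t • φ s t ∂m' := fun s =>
    (integral_smul _ _).symm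
  have e2 : ∀ t, k'.ρ t • ∫ s, k.ρ s • φ s t ∂m = ∫ s, k.ρ s • k'.ρ t • φ s t ∂m := fun t => by
    rw [← integral_smul]
    congr 1 with s
    rw [smul_comm]
  simp_rw [e1, e2]
  refine integral_integral_swap_of_hasCompactSupport
    (f := fun s t => k.ρ s • k'.ρ t • φ s t) ?_ ?_
  · exact (k.cont.comp continuous_fst).smul ((k'.cont.comp continuous_snd).smul hφ)
  · refine HasCompactSupport.intro' (k.cs.isCompact.prod k'.cs.isCompact)
      ((isClosed_tsupport _).prod (isClosed_tsupport _)) fun p hp => ?_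
    rw [Set.mem_prod, not_and_or] at hp
    rcases hp with hp | hp
    · simp [Function.uncurry, image_eq_zero_of_notMem_tsupport hp]
    · simp [Function.uncurry, image_eq_zero_of_notMem_tsupport hp]

theorem eq_zero_of_av [m.IsOpenPosMeasure] (k : Ker m) {φ : L → ℝ} (hφ : Continuous φ)
    (h0 : ∀ t, 0 ≤ φ t) (h : k.av φ ≤ 0) {t : L} (ht : k.ρ t ≠ 0) : φ t = 0 := by
  by_contra hne
  have : 0 < ∫ t, k.ρ t • φ t ∂m :=
    Continuous.integral_pos_of_hasCompactSupport_nonneg_nonzero (x := t) (k.cont.smul hφ)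
      k.cs.smul_right (fun s => mul_nonneg (k.nonneg s) (h0 s)) (mul_ne_zero ht hne)
  exact absurd h (not_le.2 this)

omit [OpensMeasurableSpace L] [IsFiniteMeasureOnCompacts m] in
theorem exists_ne_zero (k : Ker m) : ∃ t, k.ρ t ≠ 0 := by
  by_contra h
  push Not at h
  have := k.int
  simp [h] at this

/-- Averages commute with limits of equicontinuous families. -/
theorem tendsto_av {ι : Type*} {l : Filter ι} (k : Ker m) {f : ι → L → ℝ} {g : L → ℝ}
    (hf : ∀ i, Continuous (f i)) (hg : Continuous g)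
    (he : ∀ t, ∀ ε > 0, ∀ᶠ s in 𝓝 t, ∀ i, |f i s - f i t| ≤ ε)
    (hl : ∀ t, Tendsto (fun i => f i t) l (𝓝 (g t))) :
    Tendsto (fun i => k.av (f i)) l (𝓝 (k.av g)) := by
  rw [Metric.tendsto_nhds]
  intro ε hε
  have key : ∀ᶠ i in l, ∀ t ∈ tsupport k.ρ, |f i t - g t| ≤ ε / 2 := by
    refine IsCompact.induction_on (p := fun s => ∀ᶠ i in l, ∀ t ∈ s, |f i t - g t| ≤ ε / 2)
      k.cs ?_ ?_ ?_ ?_
    · simp
    · intro s t hst h
      exact h.mono fun i hi x hx => hi x (hst hx)
    · intro s t hs ht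
      filter_upwards [hs, ht] with i h1 h2 x hx
      rcases hx with hx | hx
      · exact h1 x hx
      · exact h2 x hx
    · intro t _
      have h1 := he t (ε / 6) (by positivity)
      have h2 : ∀ᶠ s in 𝓝 t, dist (g s) (g t) < ε / 6 :=
        Metric.tendsto_nhds.1 hg.continuousAt (ε / 6) (by positivity)
      refine ⟨_, mem_nhdsWithin_of_mem_nhds (h1.and h2), ?_⟩
      filter_upwards [Metric.tendsto_nhds.1 (hl t) (ε / 6) (by positivity)] with i hi s hs
      have a1 := hs.1 i
      have a2 := hs.2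
      rw [Real.dist_eq] at a2 hi
      rw [abs_le] at a1 ⊢
      rw [abs_lt] at a2 hi
      constructor <;> linarith [a1.1, a1.2, a2.1, a2.2, hi.1, hi.2]
  filter_upwards [key] with i hi
  rw [Real.dist_eq, ← k.av_sub (hf i) hg, ← Real.norm_eq_abs]
  refine lt_of_le_of_lt (k.norm_av_le_of ((hf i).sub hg) (c := ε / 2) fun t ht => ?_) (by linarith)
  exact hi t (subset_tsupport _ ht)

section Inner

variable {H : Type*} [NormedAddCommGroup H] [InnerProductSpace ℝ H] [CompleteSpace H]

theorem inner_av (k : Ker m) (w : H) {φ : L → H} (hφ : Continuous φ) :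
    inner ℝ w (k.av φ) = k.av fun t => inner ℝ w (φ t) :=
  k.map_av (innerSL ℝ w) hφ

theorem av_inner (k : Ker m) (w : H) {φ : L → H} (hφ : Continuous φ) :
    inner ℝ (k.av φ) w = k.av fun t => inner ℝ (φ t) w := by
  rw [real_inner_comm, k.inner_av w hφ]
  congr 1 with t
  exact real_inner_comm _ _

/-- The variance identity. -/
theorem av_norm_sub_sq (k : Ker m) (w : H) {φ : L → H} (hφ : Continuous φ) :
    k.av (fun t => ‖φ t - w‖ ^ 2) =
      k.av (fun t => ‖φ t‖ ^ 2) - 2 * inner ℝ (k.av φ) w + ‖w‖ ^ 2 := by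
  have e : (fun t => ‖φ t - w‖ ^ 2) =
      fun t => (‖φ t‖ ^ 2 - 2 * inner ℝ (φ t) w) + ‖w‖ ^ 2 := by
    funext t
    rw [norm_sub_sq_real]
  rw [e, k.av_add (by fun_prop) continuous_const, k.av_sub (by fun_prop) (by fun_prop), av_const,
    av_mul, k.av_inner w hφ]

/-- The inequality of Jensen. -/
theorem norm_av_sq_le (k : Ker m) {φ : L → H} (hφ : Continuous φ) :
    ‖k.av φ‖ ^ 2 ≤ k.av fun t => ‖φ t‖ ^ 2 := by
  have h := k.av_norm_sub_sq (k.av φ) hφ
  have h0 : 0 ≤ k.av (fun t => ‖φ t - k.av φ‖ ^ 2) := k.av_nonneg fun t => by positivity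
  rw [real_inner_self_eq_norm_sq] at h
  linarith

/-- The maximum principle. -/
theorem eq_of_max [m.IsOpenPosMeasure] (k : Ker m) {φ : L → H} (hφ : Continuous φ) {w : H}
    (hw : k.av φ = w) (hle : ∀ t, ‖φ t‖ ≤ ‖w‖) {t : L} (ht : k.ρ t ≠ 0) : φ t = w := by
  have h := k.av_norm_sub_sq w hφ
  rw [hw, real_inner_self_eq_norm_sq] at h
  have h1 : k.av (fun t => ‖φ t‖ ^ 2) ≤ ‖w‖ ^ 2 :=
    k.av_le (by fun_prop) fun t _ => by
      have := hle t
      have := norm_nonneg (φ t)
      gcongr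
  have h2 := k.eq_zero_of_av (φ := fun t => ‖φ t - w‖ ^ 2) (by fun_prop) (fun t => by positivity)
    (by linarith) ht
  have h3 : ‖φ t - w‖ = 0 := by simpa using h2
  exact sub_eq_zero.1 (norm_eq_zero.1 h3)

end Inner

theorem sq_av_le (k : Ker m) {φ : L → ℝ} (hφ : Continuous φ) :
    (k.av φ) ^ 2 ≤ k.av fun t => φ t ^ 2 := by
  have := k.norm_av_sq_le (H := ℝ) hφ
  simpa [Real.norm_eq_abs, sq_abs] using this

end Ker

end Vale.Agent.P011NB
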