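import Vale.Agent.P011NA.Ell2
import Vale.Agent.P011NB.PropT

/-! The normal subgroup theorem for commensurators of cocompact lattices. -/

namespace Vale.Agent.P011NB

open Filter Topology Pointwise

/-- A normal subgroup with dense image meets the lattice in a subgroup of finite index. -/
theorem nst {L G : Type*} [Group L] [Group G] [TopologicalSpace G] [IsTopologicalGroup G]
    [LocallyCompactSpace G] [T2Space G] (p : L →* G) (D N : Subgroup L) [N.Normal]
    (hcomm : ∀ n ∈ N, (D.comap (MulAut.conj n).toMonoidHom).relIndex D ≠ 0)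
    (hprop : ∀ K : Set G, IsCompact K → {d : L | d ∈ D ∧ p d ∈ K}.Finite)
    (hcoc : ∃ C : Set G, IsCompact C ∧ ∀ g : G, ∃ d ∈ D, (p d)⁻¹ * g ∈ C)
    (hdense : ∀ g : G, g ∈ closure (p '' N))
    (hcg : ∃ W : Set G, IsCompact W ∧ Subgroup.closure W = ⊤)
    (hhom : ∀ χ : G → ℝ, Continuous χ → (∀ x y, χ (x * y) = χ x + χ y) →
      (∀ d ∈ D, d ∈ N → χ (p d) = 0) → ∀ x, χ x = 0) :
    N.relIndex D ≠ 0 :=
  P011NA.nst_of p D N hcomm hprop hcoc hdense fun hai =>
    propT p D N hcomm hprop hcoc hdense hcg hhom (P011NA.reg N) (fun _ => P011NA.reg_N N) hai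

/-- Cocompactness passes to subgroups which are open in the closure of the image. -/
theorem cocompact_open {L G : Type*} [Group L] [Group G] [TopologicalSpace G]
    [IsTopologicalGroup G] (p : L →* G) (D : Subgroup L) (M : Subgroup G)
    (hM : ∀ g ∈ M, g ∈ closure (Set.range p))
    (hopen : ∃ U ∈ 𝓝 (1 : G), ∀ g ∈ U, g ∈ closure (Set.range p) → g ∈ M)
    (hcoc : ∃ C : Set G, IsCompact C ∧
      ∀ g ∈ closure (Set.range p), ∃ d ∈ D, (p d)⁻¹ * g ∈ C) :
    ∃ C : Set G, IsCompact C ∧ ∀ g ∈ M, ∃ d ∈ D, p d ∈ M ∧ (p d)⁻¹ * g ∈ C := by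
  classical
  obtain ⟨C, hC, hc⟩ := hcoc
  obtain ⟨U, hU, hUM⟩ := hopen
  let G' : Subgroup G := p.range.topologicalClosure
  have hG' : ∀ g, g ∈ G' ↔ g ∈ closure (Set.range p) := fun g => Iff.rfl
  have hC' : IsCompact (C ∩ G') := hC.inter_right (Subgroup.isClosed_topologicalClosure _)
  obtain ⟨T, hT, hTc⟩ := hC'.elim_nhds_subcover (fun c => (fun u => c⁻¹ * u) ⁻¹' U) fun c _ => by
    have : Continuous fun u : G => c⁻¹ * u := by fun_prop
    exact this.continuousAt.preimage_mem_nhds (by simpa using hU)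
  have hd : ∀ c : G, ∃ e ∈ D, (∃ d ∈ D, p d * c ∈ M) → p e * c ∈ M := fun c => by
    by_cases h : ∃ d ∈ D, p d * c ∈ M
    · obtain ⟨d, h1, h2⟩ := h
      exact ⟨d, h1, fun _ => h2⟩
    · exact ⟨1, D.one_mem, fun h' => absurd h' h⟩
  choose e he he' using hd
  refine ⟨⋃ c ∈ T, (fun u => p (e c) * u) '' C, T.isCompact_biUnion fun c _ =>
    hC.image (by fun_prop), fun g hg => ?_⟩
  obtain ⟨d, h1, h2⟩ := hc g (hM g hg)
  have h3 : (p d)⁻¹ * g ∈ G' :=
    G'.mul_mem (G'.inv_mem (Subgroup.le_topologicalClosure _ ⟨d, rfl⟩)) ((hG' g).2 (hM g hg))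
  obtain ⟨c, hcT, h4⟩ := Set.mem_iUnion₂.1 (hTc ⟨h2, h3⟩)
  have h5 : c⁻¹ * ((p d)⁻¹ * g) ∈ M :=
    hUM _ h4 ((hG' _).1 (G'.mul_mem (G'.inv_mem (hT c hcT).2) h3))
  have h6 : p d * c ∈ M := by
    have := M.mul_mem hg (M.inv_mem h5)
    simpa [mul_assoc] using this
  have h7 := he' c ⟨d, h1, h6⟩
  refine ⟨d * (e c)⁻¹, D.mul_mem h1 (D.inv_mem (he c)), ?_, Set.mem_iUnion₂.2 ⟨c, hcT, _, h2, ?_⟩⟩
  · have := M.mul_mem h6 (M.inv_mem h7)
    simpa [mul_assoc] using this
  · simp [mul_assoc]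

/-- The normal subgroup theorem for a subgroup `M` which is open in the closure of the image and
contained in the closure of the image of the normal subgroup. -/
theorem nst_open {L G : Type*} [Group L] [Group G] [TopologicalSpace G] [IsTopologicalGroup G]
    [LocallyCompactSpace G] [T2Space G] (p : L →* G) (D N : Subgroup L) [N.Normal]
    (M : Subgroup G)
    (hcomm : ∀ n ∈ N, (D.comap (MulAut.conj n).toMonoidHom).relIndex D ≠ 0)
    (hprop : ∀ K : Set G, IsCompact K → {d : L | d ∈ D ∧ p d ∈ K}.Finite)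
    (hcoc : ∃ C : Set G, IsCompact C ∧
      ∀ g ∈ closure (Set.range p), ∃ d ∈ D, (p d)⁻¹ * g ∈ C)
    (hopen : ∃ U ∈ 𝓝 (1 : G), ∀ g ∈ U, g ∈ closure (Set.range p) → g ∈ M)
    (hdense : ∀ g ∈ M, g ∈ closure (p '' N))
    (hcg : ∃ W : Set G, IsCompact W ∧ Subgroup.closure W = M)
    (hhom : ∀ χ : G → ℝ, ContinuousOn χ M → (∀ x ∈ M, ∀ y ∈ M, χ (x * y) = χ x + χ y) →
      (∀ d ∈ D, d ∈ N → p d ∈ M → χ (p d) = 0) → ∀ x ∈ M, χ x = 0) :
    N.relIndex (D ⊓ M.comap p) ≠ 0 := by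
  classical
  have hM : ∀ g ∈ M, g ∈ closure (Set.range p) := fun g hg =>
    closure_mono (Set.image_subset_range _ _) (hdense g hg)
  obtain ⟨C, hC, hc⟩ := cocompact_open p D M hM hopen hcoc
  obtain ⟨U, hU, hUM⟩ := hopen
  have hnb : ∀ g ∈ M, ∃ V ∈ 𝓝 g, ∀ x ∈ V, x ∈ closure (Set.range p) → x ∈ M := fun g hg => by
    have h1 : Continuous fun u : G => g⁻¹ * u := by fun_prop
    refine ⟨_, h1.continuousAt.preimage_mem_nhds (by simpa using hU), fun x hx hx' => ?_⟩
    have h2 : g⁻¹ * x ∈ p.range.topologicalClosure :=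
      mul_mem (inv_mem (show g ∈ p.range.topologicalClosure from hM g hg)) hx'
    simpa using M.mul_mem hg (hUM _ hx h2)
  have hcl : IsClosed (M : Set G) := by
    refine isClosed_of_closure_subset fun g hg => ?_
    have h1 : Continuous fun u : G => u⁻¹ * g := by fun_prop
    obtain ⟨x, hx, hxM⟩ := mem_closure_iff_nhds.1 hg _
      (h1.continuousAt.preimage_mem_nhds (by simpa using hU))
    have h2 : x⁻¹ * g ∈ p.range.topologicalClosure :=
      mul_mem (inv_mem (show x ∈ p.range.topologicalClosure from hM x hxM))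
        (show g ∈ p.range.topologicalClosure from closure_minimal hM isClosed_closure hg)
    simpa using M.mul_mem hxM (hUM _ hx h2)
  have := hcl.isClosedEmbedding_subtypeVal.locallyCompactSpace
  have hemb : IsClosedEmbedding (Subtype.val : M → G) := hcl.isClosedEmbedding_subtypeVal
  let L' : Subgroup L := M.comap p
  let p' : L' →* M := (p.comp L'.subtype).codRestrict M fun x => x.2
  have key := nst p' (D.subgroupOf L') (N.subgroupOf L') (fun n hn => ?_) (fun K hK => ?_) ?_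
    (fun g => ?_) ?_ fun χ h1 h2 h3 x => ?_
  · rwa [← Subgroup.inf_subgroupOf_right D, Subgroup.relIndex_subgroupOf inf_le_right] at key
  · have h := hcomm n hn
    have e : (D.subgroupOf L').comap (MulAut.conj n).toMonoidHom =
        (D.comap (MulAut.conj (n : L)).toMonoidHom).subgroupOf L' := by
      ext x
      simp [Subgroup.mem_subgroupOf]
    rw [e]
    exact Subgroup.relIndex_comap_ne_zero L'.subtype h
  · refine ((hprop _ (hK.image continuous_subtype_val)).preimage (f := L'.subtype)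
      Subtype.val_injective.injOn).subset fun d hd => ⟨hd.1, _, hd.2, rfl⟩
  · refine ⟨Subtype.val ⁻¹' C, hemb.isCompact_preimage hC, fun g => ?_⟩
    obtain ⟨d, h1, h2, h3⟩ := hc g g.2
    exact ⟨⟨d, h2⟩, h1, h3⟩
  · rw [hemb.isInducing.closure_eq_preimage_closure_image, Set.mem_preimage, mem_closure_iff_nhds]
    intro t ht
    obtain ⟨V, hV, h⟩ := hnb g g.2
    obtain ⟨_, hx, n, hn, rfl⟩ := mem_closure_iff_nhds.1 (hdense g g.2) _ (inter_mem ht hV)
    have hnM : p n ∈ M := h _ hx.2 (subset_closure ⟨n, rfl⟩)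
    exact ⟨p n, hx.1, ⟨p n, hnM⟩, ⟨⟨n, hnM⟩, hn, rfl⟩, rfl⟩
  · obtain ⟨W, hW, hg⟩ := hcg
    refine ⟨Subtype.val ⁻¹' W, hemb.isCompact_preimage hW, ?_⟩
    subst hg
    exact Subgroup.closure_preimage_eq_top W
  · have := hhom (fun g => if h : g ∈ M then χ ⟨g, h⟩ else 0) ?_ ?_ ?_ x x.2
    · simpa using this
    · rw [continuousOn_iff_continuous_domRestrict]
      refine h1.congr fun g => ?_
      change χ g = if h : g.1 ∈ M then χ ⟨g.1, h⟩ else 0
      rw [dif_pos (show g.1 ∈ M from g.2)]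
    · intro a ha b hb
      simp only [dif_pos ha, dif_pos hb, dif_pos (M.mul_mem ha hb)]
      exact h2 ⟨a, ha⟩ ⟨b, hb⟩
    · intro d hd hn hm
      simp only [dif_pos hm]
      exact h3 ⟨d, hm⟩ hd hn

end Vale.Agent.P011NB
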