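import Vale.Agent.P011NB.Bruhat

/-! The inner product space of continuous equivariant maps, Markov operators and energy. -/

namespace Vale.Agent.P011NB

open MeasureTheory Filter Topology

variable {Γ G : Type*} [Group Γ] [Group G] [TopologicalSpace G] [IsTopologicalGroup G]
  [MeasurableSpace G] {μ : Measure G}
variable {H : Type*} [NormedAddCommGroup H] [InnerProductSpace ℝ H]

/-- The invariant mean on the compact quotient, given by a density. -/
structure Mean (Λ : Lat Γ G) (μ : Measure G) where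
  κ : Ker μ
  inv : ∀ f : G → ℝ, Continuous f → Λ.Inv f → ∀ x, κ.av (fun g => f (g * x)) = κ.av f
  bound : ∀ k : Ker μ, ∃ D : ℝ, 0 ≤ D ∧ ∀ f : G → ℝ, Continuous f → Λ.Inv f → (∀ g, 0 ≤ f g) →
    ∀ g, k.av (fun t => f (g * t)) ≤ D * κ.av f

/-- Continuous equivariant maps. -/
def eqv (Λ : Lat Γ G) (π : Γ →* (H ≃ₗᵢ[ℝ] H)) : Submodule ℝ (G → H) where
  carrier := {F | Continuous F ∧ ∀ γ g, F (Λ.ι γ * g) = π γ (F g)}
  add_mem' := by
    rintro F W ⟨h1, h2⟩ ⟨h3, h4⟩
    exact ⟨h1.add h3, fun γ g => by simp only [Pi.add_apply, h2, h4, map_add]⟩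
  zero_mem' := ⟨continuous_const, fun γ g => by simp⟩
  smul_mem' := by
    rintro r F ⟨h1, h2⟩
    exact ⟨h1.const_smul r, fun γ g => by simp only [Pi.smul_apply, h2, map_smul]⟩

/-- Continuous equivariant maps, with the inner product given by the mean. -/
def Sec {Λ : Lat Γ G} (_ : Mean Λ μ) (π : Γ →* (H ≃ₗᵢ[ℝ] H)) : Type _ := eqv Λ π

namespace Sec

variable {Λ : Lat Γ G} {M : Mean Λ μ} {π : Γ →* (H ≃ₗᵢ[ℝ] H)}

instance : AddCommGroup (Sec M π) := inferInstanceAs (AddCommGroup (eqv Λ π))

instance : Module ℝ (Sec M π) := inferInstanceAs (Module ℝ (eqv Λ π))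

/-- The underlying map. -/
def val (F : Sec M π) : G → H := F.1

omit [IsTopologicalGroup G] in
@[fun_prop] theorem cont (F : Sec M π) : Continuous F.val := F.2.1

omit [IsTopologicalGroup G] in
theorem equiv (F : Sec M π) (γ : Γ) (g : G) : F.val (Λ.ι γ * g) = π γ (F.val g) := F.2.2 γ g

omit [IsTopologicalGroup G] in
theorem ext {F W : Sec M π} (h : ∀ g, F.val g = W.val g) : F = W := Subtype.ext (funext h)

omit [IsTopologicalGroup G] in
@[simp] theorem val_add (F W : Sec M π) (g : G) : (F + W).val g = F.val g + W.val g := rfl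

omit [IsTopologicalGroup G] in
@[simp] theorem val_sub (F W : Sec M π) (g : G) : (F - W).val g = F.val g - W.val g := rfl

omit [IsTopologicalGroup G] in
@[simp] theorem val_smul (r : ℝ) (F : Sec M π) (g : G) : (r • F).val g = r • F.val g := rfl

/-- Right translation. -/
def R (x : G) : Sec M π →ₗ[ℝ] Sec M π where
  toFun F := ⟨fun g => F.val (g * x), by fun_prop, fun γ g => by simp only [mul_assoc, F.equiv]⟩
  map_add' _ _ := rfl
  map_smul' _ _ := rfl

@[simp] theorem val_R (x : G) (F : Sec M π) (g : G) : (R x F).val g = F.val (g * x) := rfl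

theorem R_R (x y : G) (F : Sec M π) : R x (R y F) = R (x * y) F :=
  ext fun g => by simp [mul_assoc]

theorem R_one (F : Sec M π) : R 1 F = F := ext fun g => by simp

variable [OpensMeasurableSpace G] [IsFiniteMeasureOnCompacts μ]

/-- The inner product. -/
@[instance_reducible] noncomputable def core (M : Mean Λ μ) (π : Γ →* (H ≃ₗᵢ[ℝ] H)) :
    PreInnerProductSpace.Core ℝ (Sec M π) where
  inner F W := M.κ.av fun g => inner ℝ (F.val g) (W.val g)
  conj_inner_symm F W := by
    simp only [conj_trivial]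
    congr 1 with g
    exact real_inner_comm _ _
  re_inner_nonneg F := M.κ.av_nonneg fun _ => real_inner_self_nonneg
  add_left F W Z := by
    rw [← M.κ.av_add (by fun_prop) (by fun_prop)]
    simp only [val_add, inner_add_left]
  smul_left F W r := by
    simp only [val_smul, real_inner_smul_left, conj_trivial]
    exact M.κ.av_mul r _

noncomputable instance : SeminormedAddCommGroup (Sec M π) :=
  @InnerProductSpace.Core.toSeminormedAddCommGroup ℝ _ _ _ _ (core M π)

noncomputable instance : InnerProductSpace ℝ (Sec M π) := InnerProductSpace.ofCore (core M π)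

omit [IsTopologicalGroup G] in
theorem inner_def (F W : Sec M π) :
    inner ℝ F W = M.κ.av fun g => inner ℝ (F.val g) (W.val g) := rfl

omit [IsTopologicalGroup G] in
theorem norm_sq (F : Sec M π) : ‖F‖ ^ 2 = M.κ.av fun g => ‖F.val g‖ ^ 2 := by
  rw [← real_inner_self_eq_norm_sq, inner_def]
  simp only [real_inner_self_eq_norm_sq]

omit [IsTopologicalGroup G] in
theorem av_norm_le (F : Sec M π) : M.κ.av (fun g => ‖F.val g‖) ≤ ‖F‖ := by
  refine (le_abs_self _).trans (abs_le_of_sq_le_sq ?_ (norm_nonneg _))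
  rw [norm_sq]
  exact M.κ.sq_av_le (by fun_prop)

omit [IsTopologicalGroup G] in
theorem norm_le_of (F : Sec M π) {c : ℝ} (hc : 0 ≤ c) (h : ∀ g, M.κ.ρ g ≠ 0 → ‖F.val g‖ ≤ c) :
    ‖F‖ ≤ c := by
  refine (le_abs_self _).trans (abs_le_of_sq_le_sq ?_ hc)
  rw [norm_sq]
  exact M.κ.av_le (by fun_prop) fun g hg => pow_le_pow_left₀ (norm_nonneg _) (h g hg) 2

theorem inner_R_R (x : G) (F W : Sec M π) : inner ℝ (R x F) (R x W) = inner ℝ F W :=
  M.inv (fun g => inner ℝ (F.val g) (W.val g)) (by fun_prop)
    (fun γ g => by simp only [equiv, LinearIsometryEquiv.inner_map_map]) x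

theorem norm_R (x : G) (F : Sec M π) : ‖R x F‖ = ‖F‖ := by
  rw [norm_eq_sqrt_real_inner, inner_R_R, ← norm_eq_sqrt_real_inner]

theorem inner_R_right (x : G) (F W : Sec M π) : inner ℝ F (R x W) = inner ℝ (R x⁻¹ F) W := by
  rw [← inner_R_R x⁻¹, R_R, inv_mul_cancel, R_one]

theorem continuous_inner_R (F W : Sec M π) : Continuous fun x => inner ℝ (R x F) W :=
  M.κ.continuous_av (φ := fun x g => inner ℝ (F.val (g * x)) (W.val g))
    (by unfold Function.uncurry; fun_prop)

theorem inner_D (x : G) (F W : Sec M π) : inner ℝ (R x F - F) (R x W - W) =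
    2 * inner ℝ F W - inner ℝ (R x F) W - inner ℝ (R x⁻¹ F) W := by
  rw [inner_sub_left, inner_sub_right, inner_sub_right, inner_R_R, inner_R_right]
  ring

theorem continuous_inner_D (F W : Sec M π) :
    Continuous fun x => inner ℝ (R x F - F) (R x W - W) := by
  simp only [inner_D]
  exact (continuous_const.sub (continuous_inner_R F W)).sub
    ((continuous_inner_R F W).comp continuous_inv)

theorem continuous_norm_D (F : Sec M π) : Continuous fun x => ‖R x F - F‖ := by
  simp only [norm_eq_sqrt_real_inner]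
  exact (continuous_inner_D F F).sqrt

theorem norm_D_le (x : G) (F : Sec M π) : ‖R x F - F‖ ≤ 2 * ‖F‖ := by
  have := norm_sub_le (R x F) F
  rw [norm_R] at this
  linarith

theorem norm_D_mul (x y : G) (F : Sec M π) : ‖R (x * y) F - F‖ ≤ ‖R x F - F‖ + ‖R y F - F‖ := by
  have e : R (x * y) F - F = (R x F - F) + R x (R y F - F) := by
    rw [map_sub, R_R]
    abel
  rw [e, ← norm_R x (R y F - F)]
  exact norm_add_le _ _

theorem norm_D_inv (x : G) (F : Sec M π) : ‖R x⁻¹ F - F‖ = ‖R x F - F‖ := by
  rw [← norm_R x, map_sub, R_R, mul_inv_cancel, R_one, norm_sub_rev]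

section Dir

variable {L : Type*} [Group L] [TopologicalSpace L] [MeasurableSpace L] [OpensMeasurableSpace L]
  {m : Measure L} [IsFiniteMeasureOnCompacts m] [CompleteSpace H]

/-- The Markov operator. -/
noncomputable def P (k : Ker m) (j : L →ₜ* G) : Sec M π →ₗ[ℝ] Sec M π where
  toFun F := ⟨fun g => k.av fun t => F.val (g * j t),
    k.continuous_av (φ := fun g t => F.val (g * j t)) (by unfold Function.uncurry; fun_prop),
    fun γ g => by
      simp only [mul_assoc, F.equiv]
      exact (k.map_av (π γ).toContinuousLinearEquiv.toContinuousLinearMap (by fun_prop)).symm⟩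
  map_add' F W := ext fun g => k.av_add (φ := fun t => F.val (g * j t))
    (ψ := fun t => W.val (g * j t)) (by fun_prop) (by fun_prop)
  map_smul' r F := ext fun g => k.av_smul r _

omit [OpensMeasurableSpace G] [IsFiniteMeasureOnCompacts μ] in
theorem val_P (k : Ker m) (j : L →ₜ* G) (F : Sec M π) (g : G) :
    (P k j F).val g = k.av fun t => F.val (g * j t) := rfl

theorem inner_P (k : Ker m) (j : L →ₜ* G) (F W : Sec M π) :
    inner ℝ (P k j F) W = k.av fun t => inner ℝ (R (j t) F) W := by
  simp only [inner_def, val_P, val_R]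
  rw [← M.κ.av_swap k (φ := fun g t => inner ℝ (F.val (g * j t)) (W.val g))
    (by unfold Function.uncurry; fun_prop)]
  congr 1 with g
  exact k.av_inner _ (by fun_prop)

theorem norm_P_le (k : Ker m) (j : L →ₜ* G) (F : Sec M π) : ‖P k j F‖ ≤ ‖F‖ := by
  have h : ‖P k j F‖ ^ 2 ≤ ‖F‖ * ‖P k j F‖ := by
    rw [← real_inner_self_eq_norm_sq, inner_P]
    refine k.av_le ((continuous_inner_R F _).comp j.continuous) fun t _ => ?_
    rw [← norm_R (j t) F]
    exact real_inner_le_norm _ _
  by_contra hc
  have := norm_nonneg F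
  nlinarith

/-- The energy. -/
noncomputable def En (k : Ker m) (j : L →ₜ* G) (F : Sec M π) : ℝ :=
  k.av fun t => ‖R (j t) F - F‖ ^ 2

omit [OpensMeasurableSpace L] [IsFiniteMeasureOnCompacts m] [CompleteSpace H] in
theorem En_nonneg (k : Ker m) (j : L →ₜ* G) (F : Sec M π) : 0 ≤ En k j F :=
  k.av_nonneg fun _ => by positivity

omit [CompleteSpace H] in
theorem En_le (k : Ker m) (j : L →ₜ* G) (F : Sec M π) {c : ℝ}
    (h : ∀ t, k.ρ t ≠ 0 → ‖R (j t) F - F‖ ≤ c) : En k j F ≤ c ^ 2 :=
  k.av_le (((continuous_norm_D F).comp j.continuous).pow 2) fun t ht =>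
    pow_le_pow_left₀ (norm_nonneg _) (h t ht) 2

omit [CompleteSpace H] in
theorem En_le_norm (k : Ker m) (j : L →ₜ* G) (F : Sec M π) : En k j F ≤ 4 * ‖F‖ ^ 2 := by
  have := En_le k j F fun t _ => norm_D_le (j t) F
  linarith

omit [CompleteSpace H] in
theorem En_add_le (k : Ker m) (j : L →ₜ* G) (F W : Sec M π) :
    En k j (F + W) ≤ 2 * En k j F + 2 * En k j W := by
  have c1 : Continuous fun t => 2 * ‖R (j t) F - F‖ ^ 2 :=
    continuous_const.mul (((continuous_norm_D F).comp j.continuous).pow 2)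
  have c2 : Continuous fun t => 2 * ‖R (j t) W - W‖ ^ 2 :=
    continuous_const.mul (((continuous_norm_D W).comp j.continuous).pow 2)
  unfold En
  rw [← k.av_mul, ← k.av_mul, ← k.av_add c1 c2]
  refine k.av_mono (((continuous_norm_D (F + W)).comp j.continuous).pow 2)
    (c1.add c2) fun t _ => ?_
  have e : R (j t) (F + W) - (F + W) = (R (j t) F - F) + (R (j t) W - W) := by
    rw [map_add]
    abel
  rw [e]
  have h1 := norm_add_le (R (j t) F - F) (R (j t) W - W)
  have h2 := pow_le_pow_left₀ (norm_nonneg _) h1 2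
  nlinarith [sq_nonneg (‖R (j t) F - F‖ - ‖R (j t) W - W‖)]

omit [OpensMeasurableSpace L] [IsFiniteMeasureOnCompacts m] [CompleteSpace H] in
theorem En_smul (k : Ker m) (j : L →ₜ* G) (r : ℝ) (F : Sec M π) :
    En k j (r • F) = r ^ 2 * En k j F := by
  unfold En
  rw [← k.av_mul]
  congr 1 with t
  rw [map_smul, ← smul_sub, norm_smul, mul_pow, Real.norm_eq_abs, sq_abs]

/-- Symmetry of the averages. -/
def Sym (k : Ker m) : Prop := ∀ φ : L → ℝ, k.av (fun t => φ t⁻¹) = k.av φ

variable [ContinuousInv L]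

theorem polar {k : Ker m} (hs : Sym k) (j : L →ₜ* G) (F W : Sec M π) :
    2 * inner ℝ (F - P k j F) W = k.av fun t => inner ℝ (R (j t) F - F) (R (j t) W - W) := by
  have c1 : Continuous fun t => inner ℝ (R (j t) F) W := (continuous_inner_R F W).comp j.continuous
  have c2 : Continuous fun t => inner ℝ (R (j t⁻¹) F) W := c1.comp continuous_inv
  have c3 : Continuous fun t => 2 * inner ℝ F W - inner ℝ (R (j t) F) W := continuous_const.sub c1
  simp only [inner_D, ← map_inv]
  rw [k.av_sub c3 c2, k.av_sub continuous_const c1, k.av_const,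
    hs fun t => inner ℝ (R (j t) F) W, ← inner_P, inner_sub_left]
  ring

theorem En_eq {k : Ker m} (hs : Sym k) (j : L →ₜ* G) (F : Sec M π) :
    En k j F = 2 * inner ℝ (F - P k j F) F := by
  rw [polar hs]
  simp only [real_inner_self_eq_norm_sq]
  rfl

theorem inner_A_comm {k : Ker m} (hs : Sym k) (j : L →ₜ* G) (F W : Sec M π) :
    inner ℝ (F - P k j F) W = inner ℝ (W - P k j W) F := by
  have h1 := polar hs j F W
  have h2 := polar hs j W F
  simp only [real_inner_comm (R _ F - F)] at h2
  linarith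

theorem En_sub_smul {k : Ker m} (hs : Sym k) (j : L →ₜ* G) (F W : Sec M π) (c : ℝ) :
    En k j (F - c • W) = En k j F - 4 * c * inner ℝ (F - P k j F) W + c ^ 2 * En k j W := by
  have e : F - c • W - P k j (F - c • W) = (F - P k j F) - c • (W - P k j W) := by
    rw [map_sub, map_smul, smul_sub]
    abel
  rw [En_eq hs, En_eq hs, En_eq hs, e, inner_sub_left, inner_sub_right, inner_sub_right,
    real_inner_smul_left, real_inner_smul_left, real_inner_smul_right, real_inner_smul_right,
    inner_A_comm hs j W F]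
  ring

end Dir

end Sec

end Vale.Agent.P011NB
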