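import Vale.Agent.P011NB.Sec
import Mathlib.Topology.UniformSpace.HeineCantor

/-! Pointwise estimates for smoothed equivariant maps. -/

namespace Vale.Agent.P011NB

open MeasureTheory Filter Topology Pointwise

/-- A symmetric density whose support generates the group. -/
structure Ker.Good {L : Type*} [Group L] [TopologicalSpace L] [MeasurableSpace L] {m : Measure L}
    (k : Ker m) : Prop where
  symm : ∀ t, k.ρ t⁻¹ = k.ρ t
  one : k.ρ 1 ≠ 0
  gen : Subgroup.closure {t | k.ρ t ≠ 0} = ⊤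

section One

variable {L : Type*} [Group L] [TopologicalSpace L] [IsTopologicalGroup L]

theorem unif {ρ : L → ℝ} (hρ : Continuous ρ) (hc : HasCompactSupport ρ) {ε : ℝ} (hε : 0 < ε) :
    ∀ᶠ x in 𝓝 (1 : L), ∀ t, |ρ (x⁻¹ * t) - ρ t| ≤ ε := by
  let := IsTopologicalGroup.rightUniformSpace L
  have h := hc.uniformContinuous_of_continuous hρ
  have h2 := h (Metric.dist_mem_uniformity hε)
  rw [mem_map, uniformity_eq_comap_nhds_one' L, mem_comap] at h2
  obtain ⟨U, hU, hs⟩ := h2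
  filter_upwards [hU] with x hx t
  have : (x⁻¹ * t, t) ∈ (fun p : L × L => p.2 * p.1⁻¹) ⁻¹' U := by simpa using hx
  have h3 : dist (ρ (x⁻¹ * t)) (ρ t) < ε := hs this
  exact h3.le

variable [MeasurableSpace L] [BorelSpace L] (m : Measure L) [m.IsHaarMeasure]

omit [IsTopologicalGroup L] in
theorem exists_ker_of {φ : L → ℝ} (hφ : Continuous φ) (hc : HasCompactSupport φ)
    (h0 : ∀ t, 0 ≤ φ t) {x : L} (hx : φ x ≠ 0) :
    ∃ (k : Ker m) (c : ℝ), 0 < c ∧ ∀ t, φ t = c * k.ρ t := by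
  have hpos : 0 < ∫ t, φ t ∂m := hφ.integral_pos_of_hasCompactSupport_nonneg_nonzero hc h0 hx
  refine ⟨⟨fun t => (∫ t, φ t ∂m)⁻¹ * φ t, continuous_const.mul hφ, hc.mul_left,
    fun t => mul_nonneg (inv_nonneg.2 hpos.le) (h0 t), ?_⟩, _, hpos, fun t => ?_⟩
  · rw [integral_const_mul, inv_mul_cancel₀ hpos.ne']
  · simp only
    rw [mul_inv_cancel_left₀ hpos.ne']

variable [LocallyCompactSpace L]

theorem exists_ker_ge {K : Set L} (hK : IsCompact K) :
    ∃ (k : Ker m) (c : ℝ), 0 < c ∧ ∀ y ∈ K, 1 ≤ c * k.ρ y := by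
  obtain ⟨φ, h1, -, hc, h01⟩ :=
    exists_continuous_one_zero_of_isCompact (hK.insert 1) isClosed_empty (Set.disjoint_empty _)
  obtain ⟨k, c, hc0, hk⟩ := exists_ker_of m φ.continuous hc (fun t => (h01 t).1) (x := 1)
    (by rw [h1 (Set.mem_insert _ _)]; exact one_ne_zero)
  refine ⟨k, c, hc0, fun y hy => ?_⟩
  rw [← hk, h1 (Set.mem_insert_of_mem _ hy)]
  exact le_rfl

theorem exists_good [m.IsInvInvariant] {K : Set L} (hK : IsCompact K)
    (hg : Subgroup.closure K = ⊤) : ∃ k : Ker m, k.Good ∧ Sec.Sym k := by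
  obtain ⟨φ, h1, -, hc, h01⟩ :=
    exists_continuous_one_zero_of_isCompact (hK.insert 1) isClosed_empty (Set.disjoint_empty _)
  have hpos : ∀ t ∈ insert 1 K, φ t + φ t⁻¹ ≠ 0 := fun t ht => by
    have := (h01 t⁻¹).1
    rw [h1 ht, Pi.one_apply]
    linarith
  obtain ⟨k, c, hc0, hk⟩ := exists_ker_of m (φ := fun t => φ t + φ t⁻¹) (by fun_prop)
    (hc.add (hc.comp_homeomorph (Homeomorph.inv L))) (fun t => add_nonneg (h01 t).1 (h01 _).1)
    (hpos 1 (Set.mem_insert _ _))
  have hs : ∀ t, k.ρ t⁻¹ = k.ρ t := fun t => by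
    apply mul_left_cancel₀ hc0.ne'
    rw [← hk, ← hk, inv_inv, add_comm]
  have hne : ∀ t ∈ insert 1 K, k.ρ t ≠ 0 := fun t ht h0 => hpos t ht (by rw [hk, h0, mul_zero])
  refine ⟨k, ⟨hs, hne 1 (Set.mem_insert _ _), ?_⟩, fun ψ => ?_⟩
  · rw [eq_top_iff, ← hg]
    exact Subgroup.closure_mono fun t ht => hne t (Set.mem_insert_of_mem _ ht)
  · unfold Ker.av
    rw [← integral_inv_eq_self (fun t => k.ρ t • ψ t) m]
    simp only [hs]

omit [LocallyCompactSpace L] in
/-- Length functions are bounded on compact sets by their averages. -/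
theorem sub_bound {k : Ker m} (hk : k.Good) {K : Set L} (hK : IsCompact K) :
    ∃ C : ℝ, 0 ≤ C ∧ ∀ l : L → ℝ, Continuous l → (∀ y, 0 ≤ l y) →
      (∀ x y, l (x * y) ≤ l x + l y) → (∀ x, l x⁻¹ = l x) → ∀ y ∈ K, l y ≤ C * k.av l := by
  let p : Set L → Prop := fun s => ∃ C : ℝ, 0 ≤ C ∧ ∀ l : L → ℝ, Continuous l → (∀ y, 0 ≤ l y) →
      (∀ x y, l (x * y) ≤ l x + l y) → (∀ x, l x⁻¹ = l x) → ∀ y ∈ s, l y ≤ C * k.av l
  obtain ⟨B, hB⟩ := k.cont.bounded_above_of_compact_support k.cs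
  have hB0 : 0 ≤ B := (norm_nonneg _).trans (hB 1)
  have hB' : ∀ t, k.ρ t ≤ B := fun t => (le_abs_self _).trans (hB t)
  have hρ := k.cont
  let η : L → ℝ := fun y => k.av fun t => k.ρ (y⁻¹ * t)
  have hη : Continuous η :=
    k.continuous_av (φ := fun y t => k.ρ (y⁻¹ * t)) (by unfold Function.uncurry; fun_prop)
  have h1 : ∀ δ > 0, p {y | δ < η y} := fun δ hδ => ⟨2 * B / δ, by positivity,
    fun l hl h0 hs hi y hy => by
      have ha : 0 ≤ k.av l := k.av_nonneg h0
      have e1 : l y * η y ≤ k.av (fun t => B * l t) +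
          k.av fun t => l (y⁻¹ * t) * k.ρ (y⁻¹ * t) := by
        rw [← k.av_mul, ← k.av_add (by fun_prop) (by fun_prop)]
        refine k.av_mono (by fun_prop) (by fun_prop) fun t _ => ?_
        have a1 := hs t (y⁻¹ * t)⁻¹
        rw [hi] at a1
        simp only [mul_inv_rev, inv_inv, mul_inv_cancel_left] at a1
        have a2 := mul_le_mul_of_nonneg_right a1 (k.nonneg (y⁻¹ * t))
        have a3 := mul_le_mul_of_nonneg_left (hB' (y⁻¹ * t)) (h0 t)
        linarith
      have e2 : k.av (fun t => l (y⁻¹ * t) * k.ρ (y⁻¹ * t)) =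
          k.av fun t => k.ρ (y * t) * l t := by
        unfold Ker.av
        rw [← integral_mul_left_eq_self _ y]
        congr 1 with t
        simp only [inv_mul_cancel_left, smul_eq_mul]
        ring
      have e3 : k.av (fun t => k.ρ (y * t) * l t) ≤ k.av fun t => B * l t :=
        k.av_mono (by fun_prop) (by fun_prop) fun t _ =>
          mul_le_mul_of_nonneg_right (hB' _) (h0 t)
      rw [e2] at e1
      rw [k.av_mul] at e1 e3
      have e4 : l y * δ ≤ l y * η y := mul_le_mul_of_nonneg_left (le_of_lt hy) (h0 y)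
      rw [div_mul_eq_mul_div, le_div_iff₀ hδ]
      linarith⟩
  have hpos : ∀ y, k.ρ y⁻¹ ≠ 0 → 0 < η y := fun y hy => by
    by_contra hn
    have := k.eq_zero_of_av (φ := fun t => k.ρ (y⁻¹ * t)) (by fun_prop) (fun t => k.nonneg _)
      (not_lt.1 hn) hk.one
    exact hy (by simpa using this)
  have hmono : ∀ ⦃s t : Set L⦄, s ⊆ t → p t → p s := by
    rintro s t hst ⟨C, hC, h⟩
    exact ⟨C, hC, fun l hl h0 hs hi y hy => h l hl h0 hs hi y (hst hy)⟩
  have hmul : ∀ s t : Set L, p s → p t → p (s * t) := by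
    rintro s t ⟨C, hC, h⟩ ⟨D, hD, h'⟩
    refine ⟨C + D, by positivity, fun l hl h0 hs hi y hy => ?_⟩
    obtain ⟨a, ha, b, hb, rfl⟩ := hy
    have := hs a b
    have := h l hl h0 hs hi a ha
    have := h' l hl h0 hs hi b hb
    simp only
    linarith
  have hsing : ∀ y, k.ρ y⁻¹ ≠ 0 → p {y} := fun y hy =>
    hmono (t := {z | η y / 2 < η z}) (by
      rintro z rfl
      exact half_lt_self (hpos z hy)) (h1 _ (half_pos (hpos y hy)))
  have hall : ∀ y, p {y} := fun y => by
    have hy : y ∈ Subgroup.closure {t | k.ρ t ≠ 0} := by rw [hk.gen]; trivial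
    induction hy using Subgroup.closure_induction_right with
    | one => exact hsing 1 (by rw [inv_one]; exact hk.one)
    | mul_right y _ t ht ih =>
      simpa using hmul _ _ ih (hsing t (by rw [hk.symm]; exact ht))
    | mul_inv_cancel y _ t ht ih =>
      simpa using hmul _ _ ih (hsing t⁻¹ (by rw [inv_inv]; exact ht))
  refine IsCompact.induction_on (p := p) hK ⟨0, le_rfl, fun _ _ _ _ _ _ h => h.elim⟩ hmono ?_ ?_
  · rintro s t ⟨C, hC, h⟩ ⟨D, hD, h'⟩
    refine ⟨C + D, by positivity, fun l hl h0 hs hi y hy => ?_⟩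
    have ha : 0 ≤ k.av l := k.av_nonneg h0
    rcases hy with hy | hy
    · have := h l hl h0 hs hi y hy
      nlinarith
    · have := h' l hl h0 hs hi y hy
      nlinarith
  · intro y _
    have h2 : 0 < η 1 := hpos 1 (by rw [inv_one]; exact hk.one)
    refine ⟨{y} * {z | η 1 / 2 < η z}, mem_nhdsWithin_of_mem_nhds ?_,
      hmul _ _ (hall y) (h1 _ (half_pos h2))⟩
    refine ((isOpen_lt continuous_const hη).mul_left).mem_nhds ⟨y, rfl, 1, half_lt_self h2, ?_⟩
    simp

end One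

namespace Sec

variable {Γ G : Type*} [Group Γ] [Group G] [TopologicalSpace G] [IsTopologicalGroup G]
  [MeasurableSpace G] [BorelSpace G] {μ : Measure G} [μ.IsHaarMeasure]
variable {H : Type*} [NormedAddCommGroup H] [InnerProductSpace ℝ H] [CompleteSpace H]
variable {Λ : Lat Γ G} (M : Mean Λ μ) (π : Γ →* (H ≃ₗᵢ[ℝ] H))

omit [IsTopologicalGroup G] [CompleteSpace H] in
theorem exists_sup (k : Ker μ) : ∃ D : ℝ, 0 ≤ D ∧ ∀ (F : Sec M π) (g : G),
    ‖k.av fun t => F.val (g * t)‖ ≤ D * ‖F‖ := by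
  obtain ⟨D, hD, h⟩ := M.bound k
  refine ⟨D, hD, fun F g => (k.norm_av_le _).trans ?_⟩
  refine (h (fun g => ‖F.val g‖) (by fun_prop)
    (fun γ g => by simp only [equiv, LinearIsometryEquiv.norm_map]) (fun g => norm_nonneg _)
    g).trans ?_
  exact mul_le_mul_of_nonneg_left F.av_norm_le hD

omit [CompleteSpace H] in
theorem exists_osc [LocallyCompactSpace G] (k : Ker μ) {K₀ : Set G} (hK₀ : IsCompact K₀) :
    ∃ (K' : Set G) (C : ℝ), IsCompact K' ∧ 0 ≤ C ∧ ∀ x ∈ K₀, ∀ ε : ℝ,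
      (∀ t, |k.ρ (x⁻¹ * t) - k.ρ t| ≤ ε) → ∀ (F : Sec M π) (l : ℝ),
      (∀ y ∈ K', ‖R y F - F‖ ≤ l) → ∀ g,
      ‖k.av (fun t => F.val (g * x * t)) - k.av fun t => F.val (g * t)‖ ≤ ε * C * l := by
  obtain ⟨D, hD, h⟩ := M.bound k
  have hK₁ : IsCompact ((tsupport k.ρ)⁻¹ * (tsupport k.ρ ∪ K₀ * tsupport k.ρ)) :=
    k.cs.isCompact.inv.mul (k.cs.isCompact.union (hK₀.mul k.cs.isCompact))
  obtain ⟨χ, c, hc, hχ⟩ := exists_ker_ge μ hK₁
  refine ⟨tsupport χ.ρ, c * D, χ.cs, by positivity, fun x hx ε hε F l hl g => ?_⟩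
  have hε0 : 0 ≤ ε := (abs_nonneg _).trans (hε 1)
  have hρ := k.cont
  have c1 : Continuous fun t => k.ρ (x⁻¹ * t) := by fun_prop
  have s1 : HasCompactSupport fun t => k.ρ (x⁻¹ * t) :=
    k.cs.comp_homeomorph (Homeomorph.mulLeft x⁻¹)
  have i1 : ∀ φ : G → H, Continuous φ → Integrable (fun t => k.ρ (x⁻¹ * t) • φ t) μ :=
    fun φ hφ => (c1.smul hφ).integrable_of_hasCompactSupport s1.smul_right
  have e1 : k.av (fun t => F.val (g * x * t)) = ∫ t, k.ρ (x⁻¹ * t) • F.val (g * t) ∂μ := by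
    unfold Ker.av
    rw [← integral_mul_left_eq_self (fun t => k.ρ (x⁻¹ * t) • F.val (g * t)) x]
    simp only [inv_mul_cancel_left, mul_assoc]
  have e0 : ∀ w : H, ∫ t, k.ρ (x⁻¹ * t) • w ∂μ = ∫ t, k.ρ t • w ∂μ := fun w =>
    integral_mul_left_eq_self (fun t => k.ρ t • w) x⁻¹
  let f : G → ℝ := fun a => χ.av fun y => ‖F.val (a * y) - F.val a‖
  have hf : Continuous f :=
    χ.continuous_av (φ := fun a y => ‖F.val (a * y) - F.val a‖)
      (by unfold Function.uncurry; fun_prop)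
  have key : ∀ s, k.ρ s ≠ 0 →
      ‖k.av (fun t => F.val (g * x * t)) - k.av fun t => F.val (g * t)‖ ≤ ε * c * f (g * s) := by
    intro s hs
    have e2 : k.av (fun t => F.val (g * x * t)) - k.av (fun t => F.val (g * t)) =
        ∫ t, (k.ρ (x⁻¹ * t) - k.ρ t) • (F.val (g * t) - F.val (g * s)) ∂μ := by
      simp only [sub_smul, smul_sub]
      have j1 := i1 (fun t => F.val (g * t)) (by fun_prop)
      have j2 := k.integrable (φ := fun t => F.val (g * t)) (by fun_prop)
      have j3 := i1 (fun _ => F.val (g * s)) continuous_const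
      have j4 := k.integrable (φ := fun _ => F.val (g * s)) continuous_const
      have j5 : Integrable (fun t => k.ρ (x⁻¹ * t) • F.val (g * t) - k.ρ t • F.val (g * t)) μ :=
        j1.sub j2
      have j6 : Integrable (fun t => k.ρ (x⁻¹ * t) • F.val (g * s) - k.ρ t • F.val (g * s)) μ :=
        j3.sub j4
      rw [integral_sub j5 j6, integral_sub j1 j2, integral_sub j3 j4, e0, sub_self,
        sub_zero, e1]
      rfl
    rw [e2, ← integral_mul_left_eq_self _ s]
    refine (norm_integral_le_of_norm_le (g := fun y => ε * c *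
      (χ.ρ y • ‖F.val (g * s * y) - F.val (g * s)‖))
      ((χ.integrable (by fun_prop)).const_mul _) (Eventually.of_forall fun y => ?_)).trans ?_
    · rw [norm_smul, smul_eq_mul, ← mul_assoc g, ← mul_assoc (ε * c)]
      refine mul_le_mul_of_nonneg_right ?_ (norm_nonneg _)
      by_cases h0 : k.ρ (x⁻¹ * (s * y)) - k.ρ (s * y) = 0
      · rw [h0, norm_zero]
        exact mul_nonneg (by positivity) (χ.nonneg y)
      have hy : y ∈ (tsupport k.ρ)⁻¹ * (tsupport k.ρ ∪ K₀ * tsupport k.ρ) := by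
        refine ⟨s⁻¹, by simpa using subset_tsupport _ hs, s * y, ?_, by simp⟩
        by_cases h1 : k.ρ (s * y) = 0
        · right
          rw [h1, sub_zero] at h0
          exact ⟨x, hx, _, subset_tsupport _ h0, by simp⟩
        · exact Or.inl (subset_tsupport _ h1)
      have := mul_le_mul_of_nonneg_left (hχ y hy) hε0
      rw [mul_one, ← mul_assoc] at this
      exact (hε _).trans this
    · rw [integral_const_mul]
      exact le_rfl
  have h2 := k.le_av (φ := fun s => ε * c * f (g * s)) (by fun_prop) key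
  rw [k.av_mul] at h2
  have h3 := h f hf (fun γ a => by
    simp only [f, mul_assoc, equiv, ← map_sub, LinearIsometryEquiv.norm_map])
    (fun a => χ.av_nonneg fun _ => norm_nonneg _) g
  have h4 : M.κ.av f ≤ l := by
    rw [M.κ.av_swap χ (φ := fun a y => ‖F.val (a * y) - F.val a‖)
      (by unfold Function.uncurry; fun_prop)]
    refine χ.av_le (M.κ.continuous_av (φ := fun y a => ‖F.val (a * y) - F.val a‖)
      (by unfold Function.uncurry; fun_prop)) fun y hy => ?_
    exact (R y F - F).av_norm_le.trans (hl y (subset_tsupport _ hy))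
  have h5 := mul_le_mul_of_nonneg_left (h3.trans (mul_le_mul_of_nonneg_left h4 hD))
    (mul_nonneg hε0 hc.le)
  refine h2.trans (h5.trans (le_of_eq ?_))
  ring

end Sec

end Vale.Agent.P011NB
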